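import Vale.Agent.P144T.C.B14

/-!
The limits of the kernel of the fermions between energies.
-/

set_option linter.all false

namespace Vale.Agent.P144T.C

open Finset Vale.Agent.P144 Filter Topology
open Vale.Agent.P144.H436 (Rp_rM)
open Vale.Agent.P144.H170 (Pt pt rM pos RR RS gs VS phA phB phC phE Mk notMem_Mk)
open Vale.Agent.P144.H135

variable {Ω : Dom} {Λ : ℝ → Finset Site} {p : Pts} {x : AL.Lb p.n p.m} {k : Fin p.m} {u0 : Site}
  {s t : ℝ}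

/-- The corners near `z` are in the domain. -/
theorem dia_ev (hL : Fam0 Ω.D Λ) {z : ℂ} (hz : z ∈ Ω.D) (e : Site)
    (he : e = (0, 0) ∨ e = (1, 0) ∨ e = (0, 1)) : ∀ᶠ a in 𝓝[>] (0:ℝ), fl a z + e ∈ Λ a := by
  filter_upwards [hL.deep AL.idt hz (AL.flt z) 1] with a ha
  rcases he with rfl | rfl | rfl <;> refine ha _ ?_ ?_ <;> simp

/-- The limit of the kernel at the target. -/
theorem tgt (hL : Fam0 Ω.D Λ) (hp : Good0 Ω.D p) (hx : Ctp p x k u0 s t) : ∃ φ : ℂ →L[ℝ] ℝ,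
    ∀ {y : AL.Lb p.n p.m} {l : Fin p.m} {u1 : Site} {s1 t1 : ℝ} (_ : Ctp p y l u1 s1 t1)
      (_ : p.y k ∈ (Ω.D \ {p.y l}) \ Mk p.x w0)
      {U : Filter ℝ} (_ : U ≤ 𝓝[>] 0) {δ : ℝ} {S : Fin p.n → Prop} {QA QB QC QE : Pt → ℝ}
      {κ0 : ℂ} {q Y : ℂ → ℂ} (_ : BLim Ω U (fun a => a) (rz p.x) p.x (cz (p.y l) u1) (p.y l) δ
      (fun a => bA (Λ a) (fun i => rz p.x i a) (cz (p.y l) u1 a))
      (fun a => bB (Λ a) (fun i => rz p.x i a) (cz (p.y l) u1 a))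
      (fun a => bC (Λ a) (fun i => rz p.x i a) (cz (p.y l) u1 a))
      (fun a => bE (Λ a) (fun i => rz p.x i a) (cz (p.y l) u1 a)) S QA QB QC QE κ0 q Y),
      Tendsto (fun a : ℝ => a⁻¹ * (sg0 S (fun i => rz p.x i a) (cz (p.y l) u1 a) *
        Kn Λ p a x y) - φ (q (p.y k) / RR a (fun i => rz p.x i a) (fun q => v0 q a)
        (pos a (fl a (p.y k)) s t))) U (𝓝 0) := by
  have hKn : ∀ (a : ℝ) (y : AL.Lb p.n p.m) (l : Fin p.m) (u1 : Site) (s1 t1 : ℝ),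
      Ctp p y l u1 s1 t1 → Kn Λ p a x y = AL.Wf (Λ a) (rM fun i => rz p.x i a)
        [cz (p.y k) u0 a, cz (p.y l) u1 a] := by
    intro a y l u1 s1 t1 hy
    unfold Kn
    rw [Rp_rM, hx.c, hy.c]
    rfl
  rcases hx.h with ⟨rfl, rfl, rfl⟩ | ⟨rfl, rfl, rfl⟩ | ⟨rfl, rfl, rfl⟩
  · refine ⟨phA, fun {y l u1 s1 t1} hy hz {U} hU {δ S QA QB QC QE κ0 q Y} hB => ?_⟩
    have h1 := (hB.slim.A _ hz).comp (seq_nf ((AL.flt (p.y k)).mono_left hU))
    refine h1.congr' ?_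
    filter_upwards [(dia_ev hL (hp.2.1 k) (0, 0) (Or.inl rfl)).filter_mono hU] with a ha
    have e0 : fl a (p.y k) + (0, 0) = fl a (p.y k) := by ext <;> simp
    rw [e0] at ha
    simp only [Function.comp_apply]
    rw [eA_Wf _ _ _ ha, hKn a y l u1 s1 t1 hy]
    unfold cz
    rw [e0]
  · refine ⟨phB, fun {y l u1 s1 t1} hy hz {U} hU {δ S QA QB QC QE κ0 q Y} hB => ?_⟩
    have h1 := (hB.slim.B _ hz).comp (seq_nf ((AL.flt (p.y k)).mono_left hU))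
    refine h1.congr' ?_
    filter_upwards [(dia_ev hL (hp.2.1 k) (1, 0) (Or.inr (Or.inl rfl))).filter_mono hU] with a ha
    have e0 : fl a (p.y k) + (1, 0) = ((fl a (p.y k)).1 + 1, (fl a (p.y k)).2) := by ext <;> simp
    rw [e0] at ha
    simp only [Function.comp_apply]
    rw [eB_Wf _ _ _ ha, hKn a y l u1 s1 t1 hy]
    unfold cz
    rw [e0]
  · refine ⟨phC, fun {y l u1 s1 t1} hy hz {U} hU {δ S QA QB QC QE κ0 q Y} hB => ?_⟩
    have h1 := (hB.slim.C _ hz).comp (seq_nf ((AL.flt (p.y k)).mono_left hU))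
    refine h1.congr' ?_
    filter_upwards [(dia_ev hL (hp.2.1 k) (0, 1) (Or.inr (Or.inr rfl))).filter_mono hU] with a ha
    have e0 : fl a (p.y k) + (0, 1) = ((fl a (p.y k)).1, (fl a (p.y k)).2 + 1) := by ext <;> simp
    rw [e0] at ha
    simp only [Function.comp_apply]
    rw [eC_Wf _ _ _ ha, hKn a y l u1 s1 t1 hy]
    unfold cz
    rw [e0]

theorem xy_ne (hp : Good0 Ω.D p) (i : Fin p.n) (k : Fin p.m) : p.x i ≠ p.y k := fun h => by
  have := @hp.2.2 (Sum.inl i) (Sum.inr k) (by simpa using h)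
  cases this

theorem geo_of (hp : Good0 Ω.D p) (l : Fin p.m) : ∃ δ, Geo Ω p.x (p.y l) δ :=
  exists_geo (fun i i' h => Sum.inl_injective (hp.2.2 (by simpa using h))) hp.1 (hp.2.1 l)
    fun i => xy_ne hp i l

theorem Geo.pat {κ : Type} [Fintype κ] {ζ : κ → ℂ} {z' : ℂ} {δ : ℝ} (G : Geo Ω ζ z' δ)
    (hL : Fam0 Ω.D Λ) : ∃ S, Metric.closedBall z' (24 * δ) ⊆ VS S F0 ζ w0 :=
  (G.pos hL (U := 𝓝[>] 0) le_rfl (0, 0)).pat

theorem nM_of (hp : Good0 Ω.D p) (k : Fin p.m) : p.y k ∉ Mk p.x w0 := by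
  rintro (⟨i, hi⟩ | ⟨q, -⟩)
  · exact xy_ne hp i k hi
  · exact q.elim

/-- The positions without disorders. -/
theorem Geo.empty {κ : Type} {ζ : κ → ℂ} {z' : ℂ} {δ : ℝ} (G : Geo Ω ζ z' δ) :
    Geo Ω w0 z' δ where
  inj := fun q => q.elim
  dia := fun q => q.elim
  δ0 := G.δ0
  ball := G.ball
  far := fun q => q.elim

/-- **Two energies.** -/
theorem k3 (hL : Fam0 Ω.D Λ) (hp : Good0 Ω.D p) (k l : Fin p.m) (hkl : k ≠ l) (x y : AL.Lb p.n p.m)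
    (hx : x = .lo k ∨ x = .hi k) (hy : y = .lo l ∨ y = .hi l) : ∃ c : ℂ, Tendsto (fun a : ℝ =>
      AL.rho p a x * AL.rho p a y * (Kn Λ p a x y : ℂ) / a) (𝓝[>] 0) (𝓝 c) := by
  obtain ⟨u0, s, t, cx⟩ := exists_Ctp hx
  obtain ⟨u1, s1, t1, cy⟩ := exists_Ctp hy
  obtain ⟨δ, G⟩ := geo_of hp l
  obtain ⟨S, hS⟩ := G.pat hL
  obtain ⟨QA, QB, QC, QE, κ0, K⟩ := exists_ker u1 cy.cnr
  obtain ⟨φ, hφ⟩ := tgt hL hp cx
  have hzM := nM_of hp k
  have hz : p.y k ∈ (Ω.D \ {p.y l}) \ Mk p.x w0 :=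
    ⟨⟨hp.2.1 k, fun h => hkl (Sum.inr_injective (hp.2.2 (by simpa using h)))⟩, hzM⟩
  obtain ⟨S', S'', hS'⟩ := H170.exists_pattern (ζ := p.x) (ω := w0) (z := p.y k)
    (notMem_Mk.1 hzM).1 (fun q => q.elim)
  have e'' : S'' = F0 := funext fun q => q.elim
  rw [e''] at hS'
  have hzl : p.y l ∈ VS S F0 p.x w0 := hS (Metric.mem_closedBall_self (by
    have := G.δ0; positivity))
  -- the limit along an ultrafilter
  have key : ∀ (U : Ultrafilter ℝ) (_ : (U : Filter ℝ) ≤ 𝓝[>] 0) (q Y : ℂ → ℂ),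
      BLim Ω (U : Filter ℝ) (fun a => a) (rz p.x) p.x (cz (p.y l) u1) (p.y l) δ
      (fun a => bA (Λ a) (fun i => rz p.x i a) (cz (p.y l) u1 a))
      (fun a => bB (Λ a) (fun i => rz p.x i a) (cz (p.y l) u1 a))
      (fun a => bC (Λ a) (fun i => rz p.x i a) (cz (p.y l) u1 a))
      (fun a => bE (Λ a) (fun i => rz p.x i a) (cz (p.y l) u1 a)) S QA QB QC QE κ0 q Y →
      Tendsto (fun a : ℝ => AL.rho p a x * AL.rho p a y * (Kn Λ p a x y : ℂ) / a) U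
        (𝓝 (RS S F0 p.x w0 (p.y l) * (RS S' F0 p.x w0 (p.y k) *
          (φ (q (p.y k) / RS S' F0 p.x w0 (p.y k)) : ℂ)))) := by
    intro U hU q Y hB
    have h1 := hφ cy hz hU hB
    have h2 := rr_mul (a := fun a : ℝ => a) hU (r := rz p.x) (ζ := p.x)
      (fun i => (AL.flt (p.x i)).mono_left hU) (w := fun a => fl a (p.y k))
      ((AL.flt (p.y k)).mono_left hU) hS' cx.hs h1
    have h3 := (src_rho cy hzl hU).mul h2
    refine h3.congr' (Eventually.of_forall fun a => ?_)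
    rw [← rho_RR a cx]
    have h5 : (sg0 S (fun i => rz p.x i a) (cz (p.y l) u1 a) : ℂ) *
        sg0 S (fun i => rz p.x i a) (cz (p.y l) u1 a) = 1 := by
      rw [← Complex.ofReal_mul, sg0_sq]; simp
    push_cast
    rw [div_eq_mul_inv]
    linear_combination (AL.rho p a y * AL.rho p a x * (a:ℂ)⁻¹ * (Kn Λ p a x y : ℂ)) * h5
  refine lim_of_ultra fun U V hU hV => ?_
  obtain ⟨q, Y, hB⟩ := G.blim hL hU cy.cnr K hS
  obtain ⟨q', Y', hB'⟩ := G.blim hL hV cy.cnr K hS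
  obtain ⟨hq, -⟩ := blim_unique (G.pos hL hU u1) hS hB hB'
  refine ⟨_, key U hU q Y hB, ?_⟩
  rw [hq _ hz.1.1 hz.1.2]
  exact key V hV q' Y' hB'

/-- **The two corners of an energy.** -/
theorem k4 (hL : Fam0 Ω.D Λ) (hp : Good0 Ω.D p) (k : Fin p.m) : ∃ c : ℂ, Tendsto (fun a : ℝ =>
    AL.rho p a (.lo k) * AL.rho p a (.hi k) * ((Kn Λ p a (.lo k) (.hi k) -
      AL.sgn p a k * AL.Wf (Λ a) 0 [AL.cnp p a (.lo k), AL.cnp p a (.hi k)] : ℝ) : ℂ) / a)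
      (𝓝[>] 0) (𝓝 c) := by
  obtain ⟨u1, s1, t1, cy⟩ := exists_Ctp (p := p) (x := .hi k) (k := k) (Or.inr rfl)
  have cx := ct_lo (p := p) k
  obtain ⟨δ, G⟩ := geo_of hp k
  obtain ⟨S, hS⟩ := G.pat hL
  obtain ⟨QA, QB, QC, QE, κ0, K⟩ := exists_ker u1 cy.cnr
  have G0 := G.empty
  have hδ := G.δ0
  have hS0 : Metric.closedBall (p.y k) (24 * δ) ⊆ VS F0 F0 w0 w0 := fun z _ =>
    ⟨fun q => q.elim, fun q => q.elim⟩
  have hzb : p.y k ∈ Metric.closedBall (p.y k) (24 * δ) := Metric.mem_closedBall_self (by positivity)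
  have hzo : p.y k ∈ Metric.ball (p.y k) (24 * δ) := Metric.mem_ball_self (by positivity)
  have hz : p.y k ∈ VS S F0 p.x w0 := hS hzb
  have hKn : ∀ a : ℝ, Kn Λ p a (.lo k) (.hi k) = AL.Wf (Λ a) (rM fun i => rz p.x i a)
      [(fl a (p.y k), fl a (p.y k)), cz (p.y k) u1 a] := by
    intro a
    unfold Kn
    rw [Rp_rM, cy.c]
    rfl
  have hK0 : ∀ a : ℝ, AL.Wf (Λ a) 0 [AL.cnp p a (.lo k), AL.cnp p a (.hi k)] =
      AL.Wf (Λ a) (rM fun q => rz w0 q a)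
      [(fl a (p.y k), fl a (p.y k)), cz (p.y k) u1 a] := by
    intro a
    rw [rM_empty, cy.c]
    rfl
  -- the limit along an ultrafilter
  have key : ∀ (U : Ultrafilter ℝ) (_ : (U : Filter ℝ) ≤ 𝓝[>] 0) (q Y q0 Y0 : ℂ → ℂ),
      BLim Ω (U : Filter ℝ) (fun a => a) (rz p.x) p.x (cz (p.y k) u1) (p.y k) δ
      (fun a => bA (Λ a) (fun i => rz p.x i a) (cz (p.y k) u1 a))
      (fun a => bB (Λ a) (fun i => rz p.x i a) (cz (p.y k) u1 a))
      (fun a => bC (Λ a) (fun i => rz p.x i a) (cz (p.y k) u1 a))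
      (fun a => bE (Λ a) (fun i => rz p.x i a) (cz (p.y k) u1 a)) S QA QB QC QE κ0 q Y →
      BLim Ω (U : Filter ℝ) (fun a => a) (rz w0) w0 (cz (p.y k) u1) (p.y k) δ
      (fun a => bA (Λ a) (fun i => rz w0 i a) (cz (p.y k) u1 a))
      (fun a => bB (Λ a) (fun i => rz w0 i a) (cz (p.y k) u1 a))
      (fun a => bC (Λ a) (fun i => rz w0 i a) (cz (p.y k) u1 a))
      (fun a => bE (Λ a) (fun i => rz w0 i a) (cz (p.y k) u1 a)) F0 QA QB QC QE κ0 q0 Y0 →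
      Tendsto (fun a : ℝ => AL.rho p a (.lo k) * AL.rho p a (.hi k) *
        ((Kn Λ p a (.lo k) (.hi k) -
        AL.sgn p a k * AL.Wf (Λ a) 0 [AL.cnp p a (.lo k), AL.cnp p a (.hi k)] : ℝ) : ℂ) / a)
        U (𝓝 (RS S F0 p.x w0 (p.y k) * (RS S F0 p.x w0 (p.y k)) *
          ((phA (Y (p.y k)) - phA (Y0 (p.y k)) : ℝ) : ℂ))) := by
    intro U hU q Y q0 Y0 hB hB0
    have h1 := (hB.A _ hzo).comp (seq_nf ((AL.flt (p.y k)).mono_left hU))
    have h2 := (hB0.A _ hzo).comp (seq_nf ((AL.flt (p.y k)).mono_left hU))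
    have h3 := h1.sub h2
    have r1 := src_rho cx hz hU
    have r2 := src_rho cy hz hU
    have h4 := (r1.mul r2).mul ((Complex.continuous_ofReal.tendsto _).comp h3)
    refine h4.congr' ?_
    filter_upwards [(sgn_ev cy hz).filter_mono hU,
      (dia_ev hL (hp.2.1 k) (0, 0) (Or.inl rfl)).filter_mono hU] with a g1 g2
    have e0 : fl a (p.y k) + (0, 0) = fl a (p.y k) := by ext <;> simp
    rw [e0] at g2
    simp only [Function.comp_apply]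
    rw [eA_Wf _ _ _ g2, eA_Wf _ _ _ g2, hKn, hK0, g1]
    have e1 : sg0 F0 (fun q => rz w0 q a) (cz (p.y k) u1 a) = 1 := by
      unfold sg0 gs
      simp
    have e2 : gr F0 (fun q => rz w0 q a) ((fl a (p.y k)).1 + 1 / 4) = 1 := by
      unfold gr gs
      simp
    have e3 : sg0 S (fun i => rz p.x i a) (cz (p.y k) (0, 0) a) =
        gr S (fun i => rz p.x i a) ((fl a (p.y k)).1 + 1 / 4) := by
      rw [cx.sg0]
      unfold gr
      have e : (fun q : Empty => (q.elim : Site)) = fun q => v0 q a := by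
        funext q; exact q.elim
      rw [e]
      rfl
    rw [e1, e2, e3]
    have s1 : (sg0 S (fun i => rz p.x i a) (cz (p.y k) u1 a) : ℂ) *
        sg0 S (fun i => rz p.x i a) (cz (p.y k) u1 a) = 1 := by
      rw [← Complex.ofReal_mul, sg0_sq]; simp
    have s2 : (gr S (fun i => rz p.x i a) ((fl a (p.y k)).1 + 1 / 4) : ℂ) *
        gr S (fun i => rz p.x i a) ((fl a (p.y k)).1 + 1 / 4) = 1 := by
      rw [← Complex.ofReal_mul, gr_sq]; simp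
    generalize AL.Wf (Λ a) (rM fun i => rz p.x i a)
      [(fl a (p.y k), fl a (p.y k)), cz (p.y k) u1 a] = W1
    generalize AL.Wf (Λ a) (rM fun i => rz w0 i a)
      [(fl a (p.y k), fl a (p.y k)), cz (p.y k) u1 a] = W2
    generalize sg0 S (fun i => rz p.x i a) (cz (p.y k) u1 a) = σ at s1 ⊢
    generalize gr S (fun i => rz p.x i a) ((fl a (p.y k)).1 + 1 / 4) = g at s2 ⊢
    generalize AL.rho p a (.lo k) = ρ1
    generalize AL.rho p a (.hi k) = ρ2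
    push_cast
    rw [div_eq_mul_inv]
    linear_combination (ρ1 * ρ2 * (a:ℂ)⁻¹ * W1 * (g:ℂ) * g) * s1 + (ρ1 * ρ2 * (a:ℂ)⁻¹ * W1) * s2
  refine lim_of_ultra fun U V hU hV => ?_
  obtain ⟨q, Y, hB⟩ := G.blim hL hU cy.cnr K hS
  obtain ⟨q', Y', hB'⟩ := G.blim hL hV cy.cnr K hS
  obtain ⟨q0, Y0, hB0⟩ := G0.blim hL hU cy.cnr K hS0
  obtain ⟨q0', Y0', hB0'⟩ := G0.blim hL hV cy.cnr K hS0
  obtain ⟨-, hY⟩ := blim_unique (G.pos hL hU u1) hS hB hB'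
  obtain ⟨-, hY0⟩ := blim_unique (G0.pos hL hU u1) hS0 hB0 hB0'
  refine ⟨_, key U hU q Y q0 Y0 hB hB0, ?_⟩
  rw [hY _ hzo, hY0 _ hzo]
  exact key V hV q' Y' q0' Y0' hB' hB0'

/-- **Kernels with a source at an energy.** -/
theorem k34 : SK34 := fun _ _ hL _ hp => ⟨k3 hL hp, k4 hL hp⟩

end Vale.Agent.P144T.C
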