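import Vale.Agent.P144T.C.B10

/-!
Spinors with a source in the bulk: the `H`-function vanishes if the spinor vanishes.
-/

set_option linter.all false

namespace Vale.Agent.P144T.C

open Finset Vale.Agent.P144 Filter Topology
open Vale.Agent.P144.H170 (Mk Mk_closed HD)
open Vale.Agent.P144.H135

variable {Ω : Dom} {κ : Type} [Fintype κ] {ζ : κ → ℂ} {z' : ℂ} {δ : ℝ}

/-- A closed set with a connected collar can be removed from a connected set. -/
theorem pre_diff {W B S : Set ℂ} (hW : IsPreconnected W) (hB : IsOpen B) (hBW : B ⊆ W)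
    (hS : IsClosed S) (hSB : S ⊆ B) (hc : IsPreconnected (B \ S)) : IsPreconnected (W \ S) := by
  have key : ∀ u v : Set ℂ, IsOpen u → IsOpen v → W \ S ⊆ u ∪ v → W \ S ∩ (u ∩ v) = ∅ →
      B \ S ⊆ u → W \ S ⊆ u ∨ W \ S ⊆ v := by
    intro u v hu hv h1 h2 h3
    have h4 : ∀ x ∈ W, x ∉ S → x ∈ u → x ∈ v → False := fun x a b c d =>
      (Set.eq_empty_iff_forall_notMem.1 h2) x ⟨⟨a, b⟩, c, d⟩
    rcases isPreconnected_iff_subset_of_disjoint.1 hW (u ∪ B) (v \ S) (hu.union hB) (hv.sdiff hS)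
      (fun x hx => by
        by_cases b : x ∈ S
        · exact Or.inl (Or.inr (hSB b))
        · exact (h1 ⟨hx, b⟩).elim (fun c => Or.inl (Or.inl c)) fun c => Or.inr ⟨c, b⟩)
      (Set.eq_empty_iff_forall_notMem.2 fun x hx => h4 x hx.1 hx.2.2.2
        (hx.2.1.elim id fun c => h3 ⟨c, hx.2.2.2⟩) hx.2.2.1) with h5 | h5
    · exact Or.inl fun x hx => (h5 hx.1).elim id fun c => h3 ⟨c, hx.2⟩
    · exact Or.inr fun x hx => (h5 hx.1).1
  refine isPreconnected_iff_subset_of_disjoint.2 fun u v hu hv h1 h2 => ?_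
  have hs : B \ S ⊆ W \ S := fun x hx => ⟨hBW hx.1, hx.2⟩
  rcases isPreconnected_iff_subset_of_disjoint.1 hc u v hu hv (hs.trans h1)
    (Set.subset_eq_empty (Set.inter_subset_inter_left _ hs) h2) with h3 | h3
  · exact key u v hu hv h1 h2 h3
  · exact (key v u hv hu (by rwa [Set.union_comm]) (by rwa [Set.inter_comm v u]) h3).symm

theorem pre_collar (hδ : 0 < δ) (z' : ℂ) : IsPreconnected (Metric.ball z' (24 * δ) \
    {z | |(z - z').re| ≤ δ ∧ |(z - z').im| ≤ δ}) := by
  have hb := convex_ball z' (24 * δ)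
  have m : ∀ s t : ℝ, |s| = 2 * δ → |t| = 2 * δ → z' + ⟨s, t⟩ ∈ Metric.ball z' (24 * δ) := by
    intro s t hs ht
    rw [Metric.mem_ball, dist_eq_norm, add_sub_cancel_left]
    refine (Complex.norm_le_abs_re_add_abs_im _).trans_lt ?_
    simp only [hs, ht]
    linarith
  have p : |2 * δ| = 2 * δ := abs_of_pos (by linarith)
  have n : |-(2 * δ)| = 2 * δ := by rw [abs_neg, p]
  have h1 := (hb.inter (convex_halfSpace_re_gt (z'.re + δ))).isPreconnected
  have h2 := (hb.inter (convex_halfSpace_im_gt (z'.im + δ))).isPreconnected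
  have h3 := (hb.inter (convex_halfSpace_re_lt (z'.re - δ))).isPreconnected
  have h4 := (hb.inter (convex_halfSpace_im_lt (z'.im - δ))).isPreconnected
  have h5 := IsPreconnected.union (z' + ⟨2 * δ, 2 * δ⟩)
    (by exact ⟨m _ _ p p, by simp; linarith⟩)
    (by exact ⟨m _ _ p p, by simp; linarith⟩) h1 h2
  have h6 := IsPreconnected.union (z' + ⟨-(2 * δ), 2 * δ⟩)
    (by exact Or.inr ⟨m _ _ n p, by simp; linarith⟩)
    (by exact ⟨m _ _ n p, by simp; linarith⟩) h5 h3
  have h7 := IsPreconnected.union (z' + ⟨-(2 * δ), -(2 * δ)⟩)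
    (by exact Or.inr ⟨m _ _ n n, by simp; linarith⟩)
    (by exact ⟨m _ _ n n, by simp; linarith⟩) h6 h4
  suffices e : _ = Metric.ball z' (24 * δ) \ {z | |(z - z').re| ≤ δ ∧ |(z - z').im| ≤ δ} by
    rw [← e]; exact h7
  ext z
  simp only [Set.mem_union, Set.mem_inter_iff, Set.mem_setOf_eq, Set.mem_sdiff, abs_le,
    Complex.sub_re, Complex.sub_im]
  constructor
  · rintro (((⟨a, b⟩ | ⟨a, b⟩) | ⟨a, b⟩) | ⟨a, b⟩) <;>
      exact ⟨a, fun c => by linarith [c.1.1, c.1.2, c.2.1, c.2.2]⟩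
  · rintro ⟨a, b⟩
    by_contra hc
    simp only [not_or, not_and, not_lt] at hc
    exact b ⟨⟨by linarith [hc.1.2 a], by linarith [hc.1.1.1 a]⟩,
      by linarith [hc.2 a], by linarith [hc.1.1.2 a]⟩

/-- If the gradient vanishes then the function vanishes. -/
theorem zero_of_grad {ι : Type} {l : Filter ι} {a : ι → ℝ} {N : ι → Finset Site}
    {r : κ → ι → Site} {c : ι → AL.Cn} (h : Pos Ω l a N r ζ c z' δ) {H : ℂ → ℝ} {G : ℂ → ℂ}
    (hd : ∀ z ∈ Uh Ω.D ζ z' δ, HD H G z) (hG : ∀ z ∈ Uh Ω.D ζ z' δ, G z = 0) (bd : Van Ω.D H) :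
    ∀ z ∈ Uh Ω.D ζ z' δ, H z = 0 := by
  intro z hz
  have hδ := h.δ0
  set S : Set ℂ := {z | |(z - z').re| ≤ δ ∧ |(z - z').im| ≤ δ} with hS
  have hSc : IsClosed S :=
    (isClosed_le (f := fun z : ℂ => |(z - z').re|) (by fun_prop) continuous_const).inter
      (isClosed_le (f := fun z : ℂ => |(z - z').im|) (by fun_prop) continuous_const)
  have hSB : S ⊆ Metric.ball z' (24 * δ) := fun y hy => by
    rw [Metric.mem_ball, dist_eq_norm]
    linarith [Complex.norm_le_abs_re_add_abs_im (y - z'), hy.1, hy.2]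
  have hBW : Metric.ball z' (24 * δ) ⊆ Ω.D \ Mk ζ w0 := fun y hy => by
    rw [Metric.mem_ball, dist_eq_norm] at hy
    refine ⟨h.ball y hy.le, ?_⟩
    rintro (⟨p, rfl⟩ | ⟨p, -⟩)
    · linarith [h.far p]
    · exact p.elim
  have hU : (Ω.D \ Mk ζ w0) \ S = Uh Ω.D ζ z' δ := by
    ext y
    simp only [hS, Uh, Set.mem_sdiff, Set.mem_setOf_eq, Set.mem_inter_iff, not_and_or, not_le]
  have hpre := pre_diff (Ω.conn _ (H170.Mk_finite ζ w0)) Metric.isOpen_ball hBW hSc hSB
    (pre_collar hδ z')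
  rw [hU] at hpre
  have hf : ∀ y ∈ Uh Ω.D ζ z' δ, HasFDerivAt H (0 : ℂ →L[ℝ] ℝ) y := fun y hy => by
    have := hd y hy
    unfold HD at this
    simpa [hG y hy] using this
  have hconst : ∀ y ∈ Uh Ω.D ζ z' δ, H y = H z := fun y hy =>
    (Uh_open Ω.op ζ z' δ).is_const_of_fderiv_eq_zero (𝕜 := ℝ) hpre
      (fun w hw => (hf w hw).differentiableAt.differentiableWithinAt)
      (fun w hw => (hf w hw).fderiv) hy hz
  obtain ⟨p, p1, p2, p3⟩ := bd ⟨z, hz.1.1⟩
  refine abs_nonpos_iff.1 (le_of_forall_pos_le_add fun ε hε => ?_)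
  have hM : p ∉ Mk ζ w0 := by
    rintro (⟨q, rfl⟩ | ⟨q, -⟩)
    · exact p2 (h.dia q)
    · exact q.elim
  obtain ⟨y, ⟨y1, y2, y3⟩, y4⟩ := mem_closure_iff_nhds.1 p1 _ ((p3 ε hε).and
    (((Mk_closed ζ w0).isOpen_compl.eventually_mem hM).and
      (hSc.isOpen_compl.eventually_mem fun b => p2 (hBW (hSB b)).1)))
  rw [zero_add, ← hconst y (hU ▸ ⟨⟨y4, y2⟩, y3⟩)]
  exact y1 y4

/-- Points of the closed region are limits of points of the region. -/
theorem near_Uh {z : ℂ} (h1 : z ∈ Ω.D) (h2 : z ∉ Mk ζ w0)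
    (h3 : δ ≤ |(z - z').re| ∨ δ ≤ |(z - z').im|) {ρ : ℝ} (hρ : 0 < ρ) :
    ∃ w ∈ Uh Ω.D ζ z' δ, ‖w - z‖ < ρ := by
  obtain ⟨R, hR, hRs⟩ := Metric.mem_nhds_iff.1 ((Ω.op.sdiff (Mk_closed ζ w0)).mem_nhds ⟨h1, h2⟩)
  set s := min (R / 2) (ρ / 2) with hs
  have hs0 : 0 < s := by positivity
  have hsR : s < R := (min_le_left _ _).trans_lt (by linarith)
  have hsρ : s < ρ := (min_le_right _ _).trans_lt (by linarith)
  have hin : ∀ e : ℂ, ‖e‖ = s → z + e ∈ Ω.D \ Mk ζ w0 := fun e he => hRs (by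
    rw [Metric.mem_ball, dist_eq_norm, add_sub_cancel_left, he]; exact hsR)
  rcases h3 with h3 | h3
  · rcases le_total 0 (z - z').re with h0 | h0
    · refine ⟨z + (s : ℂ), ⟨hin _ (by rw [Complex.norm_real, Real.norm_eq_abs, abs_of_pos hs0]), ?_⟩,
        by rw [add_sub_cancel_left, Complex.norm_real, Real.norm_eq_abs, abs_of_pos hs0]; exact hsρ⟩
      left
      have e : (z + (s:ℂ) - z').re = (z - z').re + s := by
        simp only [Complex.sub_re, Complex.add_re, Complex.ofReal_re]; ring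
      rw [e, abs_of_nonneg (by linarith)]
      rw [abs_of_nonneg h0] at h3
      linarith
    · refine ⟨z + ((-s : ℝ) : ℂ), ⟨hin _ (by rw [Complex.norm_real, Real.norm_eq_abs, abs_neg,
        abs_of_pos hs0]), ?_⟩, by
          rw [add_sub_cancel_left, Complex.norm_real, Real.norm_eq_abs, abs_neg, abs_of_pos hs0]
          exact hsρ⟩
      left
      have e : (z + ((-s : ℝ):ℂ) - z').re = (z - z').re - s := by
        simp only [Complex.sub_re, Complex.add_re, Complex.ofReal_re]; ring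
      rw [e, abs_of_nonpos (by linarith)]
      rw [abs_of_nonpos h0] at h3
      linarith
  · rcases le_total 0 (z - z').im with h0 | h0
    · refine ⟨z + (s : ℂ) * Complex.I, ⟨hin _ (by rw [norm_mul, Complex.norm_I, mul_one,
        Complex.norm_real, Real.norm_eq_abs, abs_of_pos hs0]), ?_⟩,
        by rw [add_sub_cancel_left, norm_mul, Complex.norm_I, mul_one, Complex.norm_real,
          Real.norm_eq_abs, abs_of_pos hs0]; exact hsρ⟩
      right
      have e : (z + (s:ℂ) * Complex.I - z').im = (z - z').im + s := by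
        simp only [Complex.sub_im, Complex.add_im, Complex.im_ofReal_mul, Complex.I_im]; ring
      rw [e, abs_of_nonneg (by linarith)]
      rw [abs_of_nonneg h0] at h3
      linarith
    · refine ⟨z + ((-s : ℝ) : ℂ) * Complex.I, ⟨hin _ (by rw [norm_mul, Complex.norm_I, mul_one,
        Complex.norm_real, Real.norm_eq_abs, abs_neg, abs_of_pos hs0]), ?_⟩, by
          rw [add_sub_cancel_left, norm_mul, Complex.norm_I, mul_one, Complex.norm_real,
            Real.norm_eq_abs, abs_neg, abs_of_pos hs0]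
          exact hsρ⟩
      right
      have e : (z + ((-s : ℝ):ℂ) * Complex.I - z').im = (z - z').im - s := by
        simp only [Complex.sub_im, Complex.add_im, Complex.im_ofReal_mul, Complex.I_im]; ring
      rw [e, abs_of_nonpos (by linarith)]
      rw [abs_of_nonpos h0] at h3
      linarith

end Vale.Agent.P144T.C
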