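import Vale.Agent.P144T.C.B11

/-!
Spinors with a source in the bulk: the a-priori bound.
-/

set_option linter.all false

namespace Vale.Agent.P144T.C

open Finset Vale.Agent.P144 Filter Topology
open Vale.Agent.P144.H170 (Pt pt bx mem_bx D nf ev_nf a_nf Mk SLim RS RS_diff VS gq HD)
open Vale.Agent.P144.H365 (ResNN)
open Vale.Agent.P144.H135

variable {Ω : Dom} {ι κ : Type} [Fintype κ] {a : ι → ℝ} {N : ι → Finset Site} {r : κ → ι → Site}
  {ζ : κ → ℂ} {c : ι → AL.Cn} {z' : ℂ} {δ : ℝ} {A B C E Hs Hf : ι → Pt → ℝ} {L : ι → ℝ}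

theorem Pos.zD {l : Filter ι} (h : Pos Ω l a N r ζ c z' δ) : z' ∈ Ω.D := h.ball z' (by
  rw [sub_self, norm_zero]; have := h.δ0; positivity)

theorem Pos.zM {l : Filter ι} (h : Pos Ω l a N r ζ c z' δ) : z' ∉ Mk ζ w0 := by
  rintro (⟨p, hp⟩ | ⟨p, hp⟩)
  · have h1 := h.far p
    rw [hp, sub_self, norm_zero] at h1
    linarith [h.δ0]
  · exact p.elim

theorem Pos.pat {l : Filter ι} (h : Pos Ω l a N r ζ c z' δ) :
    ∃ S, Metric.closedBall z' (24 * δ) ⊆ VS S F0 ζ w0 := by
  have hδ := h.δ0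
  obtain ⟨S, S', hS⟩ := H170.exists_pattern_ball (ζ := ζ) (ω := w0) (z := z') (d := 24 * δ)
    (fun p => by
      have := h.far p
      rw [norm_sub_rev] at this
      linarith) (fun q => q.elim) (by positivity)
  have e : S' = F0 := funext fun q => q.elim
  rw [e] at hS
  exact ⟨S, hS⟩

/-- Extension of a function by its values in the ball. -/
theorem ext_zero {l : Filter ι} (h : Pos Ω l a N r ζ c z' δ) {S : κ → Prop}
    (hS : Metric.closedBall z' (24 * δ) ⊆ VS S F0 ζ w0) {q y : ℂ → ℂ}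
    (hq : DifferentiableOn ℂ q (Ω.D \ {z'})) (hy : DifferentiableOn ℂ y (Metric.ball z' (24 * δ)))
    (hqy : ∀ z ∈ Metric.ball z' (24 * δ), z ≠ z' → q z = RS S F0 ζ w0 z * y z) :
    ∃ q' : ℂ → ℂ, DifferentiableOn ℂ q' Ω.D ∧ (∀ z ∈ Ω.D, z ∉ ({z'} : Set ℂ) → q' z = q z) ∧
      q' z' = RS S F0 ζ w0 z' * y z' := by
  classical
  have hδ := h.δ0
  refine ⟨fun z => if z = z' then RS S F0 ζ w0 z' * y z' else q z, ?_, ?_, ?_⟩
  · intro z hz
    by_cases hzz : z = z'
    · subst hzz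
      have hzb : z ∈ Metric.ball z (24 * δ) := Metric.mem_ball_self (by positivity)
      have h1 : DifferentiableAt ℂ (fun w => RS S F0 ζ w0 w * y w) z :=
        (RS_diff (hS (Metric.ball_subset_closedBall hzb))).mul
          (hy.differentiableAt (Metric.isOpen_ball.mem_nhds hzb))
      refine (h1.congr_of_eventuallyEq ?_).differentiableWithinAt
      filter_upwards [Metric.isOpen_ball.mem_nhds hzb] with w hw
      by_cases hw1 : w = z
      · rw [if_pos hw1, hw1]
      · rw [if_neg hw1]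
        exact hqy w hw hw1
    · have hn : Ω.D \ {z'} ∈ 𝓝 z := (Ω.op.sdiff isClosed_singleton).mem_nhds ⟨hz, hzz⟩
      refine ((hq.differentiableAt hn).congr_of_eventuallyEq ?_).differentiableWithinAt
      filter_upwards [hn] with w hw
      exact if_neg hw.2
  · intro z _ hz
    exact if_neg hz
  · exact if_pos rfl

section

variable {l : Ultrafilter ι} (h : Pos Ω (l : Filter ι) a N r ζ c z' δ)
  (hB : ∀ᶠ k in (l : Filter ι), BD (N k) (fun p => r p k) (c k) (A k) (B k) (C k) (E k) (Hs k)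
    (Hf k))

include h hB

/-- If the scale is larger than `a` then the limit is `0`. -/
theorem q_zero {L : ι → ℝ} (hL0 : ∀ᶠ k in (l : Filter ι), 0 < L k)
    (hL : ∀ᶠ k in (l : Filter ι), Ann δ (a k) (c k) (Hs k) (Hf k) (L k))
    {u0 : Site} {QA QB QC QE : Pt → ℝ} {κ0 : ℂ} (K : PKr u0 QA QB QC QE κ0)
    (hu : ∀ᶠ k in (l : Filter ι), (c k).1 = (c k).2 + u0)
    (hτ : Tendsto (fun k => a k / sc a L k) l (𝓝 0)) :
    SLim l a ((Ω.D \ {z'}) \ Mk ζ w0) r v0 (fA a L c A) (fB a L c B) (fC a L c C)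
      (fE a L c E) (fun _ => 0) ∧
      ∃ H, HL Ω (l : Filter ι) a L ζ z' δ Hs Hf (fun _ => 0) H := by
  obtain ⟨S, hS⟩ := h.pat
  obtain ⟨σ, q, y, F⟩ := flim h hB hL0 hL K hu hS hτ
  obtain ⟨H, hH⟩ := hl_exists h hB hL0 hL F.slim
  obtain ⟨q', hq', he, -⟩ := ext_zero (y := fun z => σ * y z) h hS F.qd (F.yd.const_mul _)
    (fun z hz hzz => by
      rw [F.qy z hz hzz]; simp)
  have hb := bdc_of h.δ0 F.qd hH
  have hinj : Function.Injective (Sum.elim ζ w0) := by
    rintro (x | x) (y | y) hxy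
    · exact congrArg Sum.inl (h.inj hxy)
    · exact y.elim
    · exact x.elim
    · exact x.elim
  have hz0 := Ω.uni _ _ ζ w0 q' q (fun _ => 0) {z'}
    h.dia (fun p => p.elim) hinj (Set.finite_singleton _)
    (Set.singleton_subset_iff.2 h.zD) (fun z hz => by rw [Set.mem_singleton_iff.1 hz]; exact h.zM)
    hq' (fun z hz hzz => by rw [he z hz hzz, sub_zero])
    (fun p => (F.qd.differentiableAt ((Ω.op.sdiff isClosed_singleton).mem_nhds
      ⟨h.dia p, fun h' => by
        have h1 := h.far p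
        rw [Set.mem_singleton_iff.1 h', sub_self, norm_zero] at h1
        linarith [h.δ0]⟩)).continuousAt)
    (fun p => continuousAt_const) hb bdc_zero (fun p => res_of h F.qd hH p)
    (fun p => res_zero _) (fun p => p.elim)
  have hq0 : ∀ z ∈ (Ω.D \ {z'}) \ Mk ζ w0, q z = 0 := fun z hz => by
    rw [← he z hz.1.1 hz.1.2]; exact hz0 z hz.1.1
  refine ⟨⟨fun z hz => ?_, fun z hz => ?_, fun z hz => ?_, fun z hz => ?_⟩, H, hH.hs, hH.hf,
    fun z hz => ?_, hH.up, hH.van, hH.bdc⟩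
  · have := F.slim.A z hz
    rw [hq0 z hz] at this
    exact this
  · have := F.slim.B z hz
    rw [hq0 z hz] at this
    exact this
  · have := F.slim.C z hz
    rw [hq0 z hz] at this
    exact this
  · have := F.slim.E z hz
    rw [hq0 z hz] at this
    exact this
  · have h1 := hH.hd z hz
    have e : gq ζ w0 q z = gq ζ w0 (fun _ => 0) z := by
      unfold gq
      rw [hq0 z (Uh_sub h.δ0 hz)]
    unfold HD at h1 ⊢
    rw [← e]
    exact h1

/-- **The a-priori bound.** -/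
theorem apriori {u0 : Site} {QA QB QC QE : Pt → ℝ} {κ0 : ℂ} (K : PKr u0 QA QB QC QE κ0)
    (hu : ∀ᶠ k in (l : Filter ι), (c k).1 = (c k).2 + u0) :
    ∃ Λ > 0, ∀ᶠ k in (l : Filter ι), Ann δ (a k) (c k) (Hs k) (Hf k) (Λ * a k) := by
  classical
  have hδ := h.δ0
  by_contra hcon
  push Not at hcon
  set Fs : ι → Finset Pt := fun k => (bx (c k).2 (8 * nb δ (a k))).filter
    fun x => x ∉ bx (c k).2 (nb δ (a k) - 1) with hFs
  set M : ι → Pt → ℝ := fun k x => max |Hs k x| |Hf k x| with hM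
  have hnot : ∀ Λ > 0, ∀ᶠ k in (l : Filter ι), ∃ x ∈ Fs k, Λ * a k < M k x := by
    intro Λ hΛ
    filter_upwards [hcon Λ hΛ] with k hk
    unfold Ann at hk
    push Not at hk
    obtain ⟨x, hx1, hx2, hx3⟩ := hk
    refine ⟨x, mem_filter.2 ⟨hx1, hx2⟩, ?_⟩
    simp only [hM]
    rw [lt_max_iff]
    by_cases h2 : |Hs k x| ≤ Λ * a k
    · exact Or.inr (hx3 h2)
    · exact Or.inl (not_le.1 h2)
  have hex : ∀ k, ∃ x, (Fs k).Nonempty → x ∈ Fs k ∧ ∀ y ∈ Fs k, M k y ≤ M k x := by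
    intro k
    by_cases hne : (Fs k).Nonempty
    · obtain ⟨x, hx1, hx2⟩ := exists_max_image (Fs k) (M k) hne
      exact ⟨x, fun _ => ⟨hx1, hx2⟩⟩
    · exact ⟨0, fun h' => absurd h' hne⟩
  choose xm hxm using hex
  set L : ι → ℝ := fun k => M k (xm k) with hLdef
  have hxF : ∀ᶠ k in (l : Filter ι), xm k ∈ Fs k ∧ ∀ y ∈ Fs k, M k y ≤ L k := by
    filter_upwards [hnot 1 one_pos] with k hk
    obtain ⟨x, hx, -⟩ := hk
    exact hxm k ⟨x, hx⟩
  have hbig : ∀ Λ > 0, ∀ᶠ k in (l : Filter ι), Λ * a k < L k := by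
    intro Λ hΛ
    filter_upwards [hnot Λ hΛ, hxF] with k hk1 hk2
    obtain ⟨x, hx, hx1⟩ := hk1
    exact hx1.trans_le (hk2.2 x hx)
  have hL0 : ∀ᶠ k in (l : Filter ι), 0 < L k := by
    filter_upwards [hbig 1 one_pos, h.apos] with k k1 k2
    linarith
  have hL : ∀ᶠ k in (l : Filter ι), Ann δ (a k) (c k) (Hs k) (Hf k) (L k) := by
    filter_upwards [hxF] with k hk x hx1 hx2
    have := hk.2 x (mem_filter.2 ⟨hx1, hx2⟩)
    exact ⟨(le_max_left _ _).trans this, (le_max_right _ _).trans this⟩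
  have hτ : Tendsto (fun k => a k / sc a L k) l (𝓝 0) := by
    rw [Metric.tendsto_nhds]
    intro ε hε
    filter_upwards [hbig (1 / ε ^ 2) (by positivity), h.apos, hL0] with k k1 k2 k3
    rw [Real.dist_eq, sub_zero]
    unfold sc
    rw [abs_of_nonneg (by positivity), div_lt_iff₀ (by positivity)]
    have k4 : a k / ε < √(a k * L k) := by
      refine Real.lt_sqrt_of_sq_lt ?_
      have : a k * (1 / ε ^ 2 * a k) < a k * L k := mul_lt_mul_of_pos_left k1 k2
      calc (a k / ε) ^ 2 = a k * (1 / ε ^ 2 * a k) := by field_simp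
        _ < _ := this
    calc a k = ε * (a k / ε) := by field_simp
      _ < _ := mul_lt_mul_of_pos_left k4 hε
  obtain ⟨hs, H, hH⟩ := q_zero h hB hL0 hL K hu hτ
  have hg0 : ∀ z, gq ζ w0 (fun _ => 0) z = 0 := fun z => by unfold gq; simp
  have hH0 := zero_of_grad h hH.hd (fun z _ => hg0 z) hH.van
  -- the limit of the maximiser
  have hbx : ∀ᶠ k in (l : Filter ι), ‖pt (a k) (xm k) - pt (a k) (c k).2‖ ≤ 16 * δ ∧
      (δ - a k ≤ |(pt (a k) (xm k) - pt (a k) (c k).2).re| ∨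
        δ - a k ≤ |(pt (a k) (xm k) - pt (a k) (c k).2).im|) := by
    filter_upwards [hxF, h.apos, h.asmall hδ] with k k1 k2 k3
    obtain ⟨g1, g2⟩ := mem_filter.1 k1.1
    have n0 := nb_le hδ k2
    have n1 := nb_gt (δ := δ) k2
    have n2 : 0 < nb δ (a k) := nb_pos k2 k3
    constructor
    · have := norm_of_bx k2 g1
      push_cast at this
      linarith
    · simp only [pt, Complex.sub_re, Complex.sub_im]
      rw [← mul_sub, ← mul_sub, abs_mul, abs_mul, abs_of_pos k2]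
      rw [mem_bx] at g2
      have h3 : ((nb δ (a k) : ℕ) : ℤ) ≤ |(xm k).1 - (c k).2.1| ∨
          ((nb δ (a k) : ℕ) : ℤ) ≤ |(xm k).2 - (c k).2.2| := by
        by_contra hc
        push Not at hc
        have c1 := abs_lt.1 hc.1
        have c2 := abs_lt.1 hc.2
        exact g2 (by lia)
      rcases h3 with h3 | h3
      · left
        have h4 : ((nb δ (a k) : ℕ) : ℝ) ≤ |((xm k).1:ℝ) - (c k).2.1| := by
          have : (((nb δ (a k) : ℕ) : ℤ) : ℝ) ≤ ((|(xm k).1 - (c k).2.1| : ℤ) : ℝ) := by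
            exact_mod_cast h3
          push_cast at this
          exact this
        have := mul_le_mul_of_nonneg_left h4 k2.le
        linarith
      · right
        have h4 : ((nb δ (a k) : ℕ) : ℝ) ≤ |((xm k).2:ℝ) - (c k).2.2| := by
          have : (((nb δ (a k) : ℕ) : ℤ) : ℝ) ≤ ((|(xm k).2 - (c k).2.2| : ℤ) : ℝ) := by
            exact_mod_cast h3
          push_cast at this
          exact this
        have := mul_le_mul_of_nonneg_left h4 k2.le
        linarith
  obtain ⟨zs, hzs⟩ : ∃ zs, Tendsto (fun k => pt (a k) (xm k)) (l : Filter ι) (𝓝 zs) := by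
    have hmem : Metric.closedBall z' (17 * δ) ∈ (l.map fun k => pt (a k) (xm k)) := by
      rw [Ultrafilter.mem_map]
      filter_upwards [hbx, h.gclose hδ] with k k1 k2
      show pt (a k) (xm k) ∈ Metric.closedBall z' (17 * δ)
      rw [Metric.mem_closedBall, dist_eq_norm]
      have := norm_sub_le_norm_sub_add_norm_sub (pt (a k) (xm k)) (pt (a k) (c k).2) z'
      linarith [k1.1]
    obtain ⟨w, -, hw⟩ := (isCompact_closedBall z' (17 * δ)).ultrafilter_le_nhds' _ hmem
    exact ⟨w, hw⟩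
  have hd1 : Tendsto (fun k => pt (a k) (xm k) - pt (a k) (c k).2) (l : Filter ι) (𝓝 (zs - z')) :=
    hzs.sub h.hg
  have ha0 : Tendsto a (l : Filter ι) (𝓝 0) := h.a0.mono_right nhdsWithin_le_nhds
  have hz16 : ‖zs - z'‖ ≤ 16 * δ := by
    refine le_of_tendsto hd1.norm ?_
    filter_upwards [hbx] with k k1
    exact k1.1
  have hzor : δ ≤ |(zs - z').re| ∨ δ ≤ |(zs - z').im| := by
    have t1 : Tendsto (fun k => δ - a k) (l : Filter ι) (𝓝 δ) := by
      simpa using ha0.const_sub δ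
    rcases Ultrafilter.eventually_or.1 (hbx.mono fun k hk => hk.2) with h1 | h1
    · left
      exact le_of_tendsto_of_tendsto t1 ((Complex.continuous_re.tendsto _).comp hd1).abs h1
    · right
      exact le_of_tendsto_of_tendsto t1 ((Complex.continuous_im.tendsto _).comp hd1).abs h1
  have hzD : zs ∈ Ω.D := h.ball zs (by linarith)
  have hzz : zs ≠ z' := by
    rintro rfl
    simp only [sub_self, Complex.zero_re, Complex.zero_im, abs_zero, or_self] at hzor
    linarith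
  have hzM : zs ∉ Mk ζ w0 := by
    rintro (⟨p, rfl⟩ | ⟨p, -⟩)
    · have := h.far p
      linarith
    · exact p.elim
  have hzU : zs ∈ (Ω.D \ {z'}) \ Mk ζ w0 := ⟨⟨hzD, hzz⟩, hzM⟩
  -- gradients
  obtain ⟨G1, G2⟩ := H170.grad_lim (r := r) (v := v0) (ζ := ζ) (ω := w0) h.a0 h.hr
    (fun q => q.elim) (U := (Ω.D \ {z'}) \ Mk ζ w0)
    (fun z hz => hz.2) hs (hon_all h hB hL0 _)
  obtain ⟨ρ1, hρ1, g1⟩ := G1 zs hzU (1 / 8) (by norm_num)
  obtain ⟨ρ2, hρ2, g2⟩ := G2 zs hzU (1 / 8) (by norm_num)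
  set ρ := min (min ρ1 ρ2) 1 with hρ
  have hρ0 : 0 < ρ := by positivity
  have hρa : ρ ≤ ρ1 := (min_le_left _ _).trans (min_le_left _ _)
  have hρb : ρ ≤ ρ2 := (min_le_left _ _).trans (min_le_right _ _)
  have hρc : ρ ≤ 1 := min_le_right _ _
  obtain ⟨w, hwU, hw⟩ := near_Uh (z' := z') (δ := δ) hzD hzM hzor (show 0 < ρ / 4 by positivity)
  have hwlim := hH.hs.at h.a0 hwU
  rw [hH0 w hwU] at hwlim
  have hw1 := (Metric.tendsto_nhds.1 hwlim) (1 / 8) (by norm_num)
  have hx1 := (Metric.tendsto_nhds.1 hzs) (ρ / 2) (by positivity)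
  -- the difference of the two functions
  have hdiff : ∀ᶠ k in (l : Filter ι), |Hs k (xm k) / L k - Hf k (xm k) / L k| ≤ 1 / 8 := by
    obtain ⟨f, -, cA, -, -, -⟩ := hs.sq (ζ := ζ) (ω := w0) h.a0 h.hr (fun q => q.elim) hzU hzM
    have h1 := (a_nf h.a0 zs).mul cA
    rw [zero_mul] at h1
    have h2 : ∀ᶠ kx in nf (l : Filter ι) a zs, |Hs kx.1 kx.2 / L kx.1 - Hf kx.1 kx.2 / L kx.1| ≤
        1 / 8 := by
      have h3 := (Metric.tendsto_nhds.1 h1) (1 / 8) (by norm_num)
      filter_upwards [h3, hon_all h hB hL0 Set.univ zs (Set.mem_univ _)] with kx k1 k2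
      rw [k2.1]
      rw [Real.dist_eq, sub_zero] at k1
      exact k1.le
    obtain ⟨s, hs', h4⟩ := (ev_nf (P := fun k x => |Hs k x / L k - Hf k x / L k| ≤ 1 / 8)).1 h2
    have h5 := (Metric.tendsto_nhds.1 hzs) s hs'
    filter_upwards [h4, h5] with k k1 k2
    rw [dist_eq_norm] at k2
    exact k1 _ k2.le
  have hfin : ∀ᶠ _ in (l : Filter ι), False := by
    filter_upwards [g1, g2, hw1, hx1, hdiff, hxF, hL0, h.apos,
      h.asmall (show 0 < ρ / 16 by positivity)] with k k1 k2 k3 k4 k5 k6 k7 k8 k9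
    rw [Real.dist_eq, sub_zero] at k3
    rw [dist_eq_norm] at k4
    have b1 : ∀ x, ‖pt (a k) x - zs‖ ≤ ρ → |D (1, 0) (fun x => Hs k x / L k) x - 0| ≤
        a k * (1 / 8) := by
      intro x hx
      have := k1 x (hx.trans hρa)
      rw [hg0, Complex.zero_re, sub_zero, abs_mul, abs_of_pos (inv_pos.2 k8)] at this
      rw [sub_zero]
      calc |D (1, 0) (fun x => Hs k x / L k) x| = a k * ((a k)⁻¹ *
          |D (1, 0) (fun x => Hs k x / L k) x|) := by field_simp
        _ ≤ _ := mul_le_mul_of_nonneg_left this k8.le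
    have b2 : ∀ x, ‖pt (a k) x - zs‖ ≤ ρ → |D (0, 1) (fun x => Hs k x / L k) x - 0| ≤
        a k * (1 / 8) := by
      intro x hx
      have := k2 x (hx.trans hρb)
      rw [hg0, Complex.zero_im, neg_zero, sub_zero, abs_mul, abs_of_pos (inv_pos.2 k8)] at this
      rw [sub_zero]
      calc |D (0, 1) (fun x => Hs k x / L k) x| = a k * ((a k)⁻¹ *
          |D (0, 1) (fun x => Hs k x / L k) x|) := by field_simp
        _ ≤ _ := mul_le_mul_of_nonneg_left this k8.le
    have hfl := H170.pt_fl_norm k8 w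
    have hfz : ‖pt (a k) (fl (a k) w) - zs‖ ≤ ρ / 2 := by
      have := norm_sub_le_norm_sub_add_norm_sub (pt (a k) (fl (a k) w)) w zs
      linarith
    have h5 := H170.incr k8 b1 b2 (x := fl (a k) w) (y := xm k) hfz k4.le
    rw [zero_mul, zero_mul, sub_zero, sub_zero] at h5
    have h6 := H170.pt_sub_norm' k8 (xm k) (fl (a k) w)
    have h7 : ‖pt (a k) (xm k) - pt (a k) (fl (a k) w)‖ ≤ ρ := by
      have := norm_sub_le_norm_sub_add_norm_sub (pt (a k) (xm k)) zs (pt (a k) (fl (a k) w))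
      rw [norm_sub_rev zs] at this
      linarith
    have h8 : |Hs k (xm k) / L k - Hs k (fl (a k) w) / L k| ≤ 1 / 4 := by
      calc _ ≤ a k * (1 / 8) * (|((xm k).1:ℝ) - ((fl (a k) w).1:ℝ)| +
            |((xm k).2:ℝ) - ((fl (a k) w).2:ℝ)|) := h5
        _ = (1 / 8) * (a k * (|((xm k).1:ℝ) - ((fl (a k) w).1:ℝ)| +
            |((xm k).2:ℝ) - ((fl (a k) w).2:ℝ)|)) := by ring
        _ ≤ (1 / 8) * (2 * ρ) := mul_le_mul_of_nonneg_left (h6.trans (by linarith)) (by norm_num)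
        _ ≤ 1 / 4 := by linarith
    have h9 : |Hs k (xm k) / L k| ≤ 3 / 8 := by
      have := abs_add_le (Hs k (xm k) / L k - Hs k (fl (a k) w) / L k) (Hs k (fl (a k) w) / L k)
      rw [sub_add_cancel] at this
      linarith
    have h10 : |Hf k (xm k) / L k| ≤ 1 / 2 := by
      have := abs_sub_abs_le_abs_sub (Hf k (xm k) / L k) (Hs k (xm k) / L k)
      rw [abs_sub_comm] at this
      linarith
    rw [abs_div, abs_of_pos k7, div_le_iff₀ k7] at h9 h10
    have h11 : L k ≤ L k / 2 := by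
      have : L k = max |Hs k (xm k)| |Hf k (xm k)| := rfl
      rw [this]
      refine max_le ?_ ?_
      · rw [← this]; linarith
      · rw [← this]; linarith
    linarith
  exact (hfin.exists).elim fun _ h' => h'

end

end Vale.Agent.P144T.C
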