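import Vale.Agent.P144T.C.Z9
import Vale.Agent.P144T.A.Glob

/-!
Spinors with a source in the bulk: the limit of the fields.
-/

set_option linter.all false

namespace Vale.Agent.P144T.C

open Finset Vale.Agent.P144 Filter Topology
open Vale.Agent.P144.H170 (Pt pt tauF L2ball L2on nf ev_nf apos_nf tendsto_fst_nf ev_nf_of Mk SLim
  RS RS_ne RS_diff VS gs gs_sq of_xlim xlim_of phA phB phC phE phA_apply phE_apply slim_ext
  nf_neBot Clean VS_ne notMem_Mk SRel gauge_signs CR4)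
open Vale.Agent.P144.H135
open Vale.Agent.P144T.A (RelB)

variable {Ω : Dom} {ι κ : Type} [Fintype κ] {a : ι → ℝ} {N : ι → Finset Site} {r : κ → ι → Site}
  {ζ : κ → ℂ} {c : ι → AL.Cn} {z' : ℂ} {δ : ℝ} {A B C E Hs Hf : ι → Pt → ℝ} {L : ι → ℝ}

section

variable {l : Filter ι} (h : Pos Ω l a N r ζ c z' δ)
  (hB : ∀ᶠ k in l, BD (N k) (fun p => r p k) (c k) (A k) (B k) (C k) (E k) (Hs k) (Hf k))
  (hL0 : ∀ᶠ k in l, 0 < L k) (hL : ∀ᶠ k in l, Ann δ (a k) (c k) (Hs k) (Hf k) (L k))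

include h hB

/-- The relations hold away from the source, up to the boundary of the domain. -/
theorem relB_ep (s : ι → ℝ) : RelB l a N {z'}ᶜ r v0 (fun k x => s k * eA (c k) (A k) x)
    (fun k x => s k * eB (c k) (B k) x) (fun k x => s k * eC (c k) (C k) x)
    (fun k x => s k * eE (c k) (E k) x) := by
  intro z hz
  have hne : ∀ e : Pt, ∀ᶠ kx in nf l a z, (c kx.1).2 ≠ kx.2 + e := by
    intro e
    have hw : Tendsto (fun kx : ι × Pt => pt (a kx.1) (kx.2 + e) - pt (a kx.1) (c kx.1).2)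
        (nf l a z) (𝓝 (z - z')) := by
      have h1 := (H170.tendsto_pt_nf (l := l) (a := a) z).sub (h.hg.comp (tendsto_fst_nf z))
      have h2 : Tendsto (fun kx : ι × Pt => pt (a kx.1) e) (nf l a z) (𝓝 0) := by
        have : Tendsto (fun kx : ι × Pt => ((a kx.1 : ℝ) : ℂ) * pt 1 e) (nf l a z) (𝓝 (0 * pt 1 e)) :=
          ((Complex.continuous_ofReal.tendsto _).comp (H170.a_nf h.a0 z)).mul_const _
        rw [zero_mul] at this
        exact this.congr fun kx => (pt_smul _ _).symm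
      have h3 := h1.add h2
      rw [add_zero] at h3
      refine h3.congr fun kx => ?_
      rw [pt_add]
      simp only [Function.comp_apply]
      ring
    filter_upwards [hw.eventually_ne (sub_ne_zero.2 hz)] with kx h1 h2
    rw [h2, sub_self] at h1
    exact h1 rfl
  filter_upwards [H170.ev_nf_of (l := l) (a := a) (z := z) hB, hne 0, hne (0, 1)] with kx k1 k2 k3
  obtain ⟨k, i, j⟩ := kx
  simp only at k1 k2 k3 ⊢
  rw [add_zero] at k2
  have h1 := SRel.of_spr k1.spr i j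
  refine (srel_ep k1.cnr h1 (theF_v0 k _) k2 ?_).smul (s k)
  simpa using k3

/-- The difference to the kernel of the plane satisfies the clean relations. -/
theorem Y_clean {u0 : Site} {QA QB QC QE : Pt → ℝ} {κ0 : ℂ} (K : PKr u0 QA QB QC QE κ0)
    (hu : ∀ᶠ k in l, (c k).1 = (c k).2 + u0) {S : κ → Prop}
    (hS : Metric.closedBall z' (24 * δ) ⊆ VS S (fun _ : Empty => False) ζ w0) :
    Clean l a (Metric.ball z' (24 * δ))
      (fun k y => sg0 S (fun p => r p k) (c k) * (gr S (fun p => r p k) ((y.1:ℝ) + 1 / 4) *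
        eA (c k) (A k) y) - QA (y - (c k).2))
      (fun k y => sg0 S (fun p => r p k) (c k) * (gr S (fun p => r p k) ((y.1:ℝ) + 3 / 4) *
        eB (c k) (B k) y) - QB (y - (c k).2))
      (fun k y => sg0 S (fun p => r p k) (c k) * (gr S (fun p => r p k) ((y.1:ℝ) + 1 / 4) *
        eC (c k) (C k) y) - QC (y - (c k).2))
      (fun k y => sg0 S (fun p => r p k) (c k) * (gr S (fun p => r p k) ((y.1:ℝ) + 3 / 4) *
        eE (c k) (E k) y) - QE (y - (c k).2)) := by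
  intro z hz
  have hz1 : z ∈ Metric.closedBall z' (24 * δ) := Metric.ball_subset_closedBall hz
  have hzD : z ∈ Ω.D := h.ball z (by
    rw [Metric.mem_closedBall, dist_eq_norm] at hz1; exact hz1)
  have g1 := gauge_signs h.a0 h.hr (v := v0) (ω := w0) (fun q => q.elim) (hS hz1)
  refine (ev_nf (P := fun k x => CR4 _ _ _ _ x)).1 ?_
  filter_upwards [g1, h.hN.near h.a0 hzD 1, H170.ev_nf_of (l := l) (a := a) (z := z) hB,
    H170.ev_nf_of (l := l) (a := a) (z := z) hu] with kx k1 k2 k3 k4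
  obtain ⟨k, i, j⟩ := kx
  simp only at k1 k2 k3 k4 ⊢
  rw [theF_v0] at k1
  have m1 := k2 (i, j + 1) (by simp) (by simp)
  have m2 := k2 (i + 1, j + 1) (by simp) (by simp)
  have m3 := k2 (i + 1, j) (by simp) (by simp)
  have e1 := k3.spr.V i j (mem_hor.2 ⟨m1, m2⟩)
  have e2 := k3.spr.H i j (mem_ver.2 ⟨m3, m2⟩)
  have hu0 : (c k).1 - (c k).2 = u0 := by rw [k4]; simp
  refine diff_clean (gA := fun y => gr S (fun p => r p k) ((y.1:ℝ) + 1 / 4))
    (gB := fun y => gr S (fun p => r p k) ((y.1:ℝ) + 3 / 4)) (t := tauF fun p => r p k)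
    (th := fun _ => 1) (κ := κ0) (by rw [hu0]; exact K) ?_ k3.cnr ?_ k1.1 ?_
    (fun y => gr_sq _ _ _) (fun y => gr_sq _ _ _) ?_ ?_
  · refine ⟨fun hh => ?_, fun hh => ?_, fun hh => ?_, fun hh => ?_⟩
    · have hc1 : (c k).1.1 = (c k).2.1 := by rw [← hh]
      rw [k3.sA hh, mul_one]
      simp only [sg0, if_pos hc1]
      exact gs_sq _ _ _ _ _
    · have hc1 : ¬ (c k).1.1 = (c k).2.1 := by
        have : (c k).1.1 = (c k).2.1 + 1 := by rw [← hh]
        rw [this]; simp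
      rw [k3.sB hh, mul_one]
      simp only [sg0, if_neg hc1]
      exact gs_sq _ _ _ _ _
    · have hc1 : (c k).1.1 = (c k).2.1 := by rw [← hh]
      rw [k3.sC hh, mul_one]
      simp only [sg0, if_pos hc1]
      exact gs_sq _ _ _ _ _
    · have hc1 : ¬ (c k).1.1 = (c k).2.1 := by
        have : (c k).1.1 = (c k).2.1 + 1 := by rw [← hh]
        rw [this]; simp
      rw [k3.sE hh, mul_one]
      simp only [sg0, if_neg hc1]
      exact gs_sq _ _ _ _ _
  · unfold H170.Rel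
    simp only [mul_one, Prod.mk_add_mk, add_zero]
    exact ⟨e1.1, e1.2, e2.1, e2.2⟩
  · have := k1.2
    simp only [Prod.mk_add_mk, add_zero]
    push_cast
    rw [show (i:ℝ) + 1 + 1 / 4 = (i:ℝ) + 5 / 4 by ring]
    exact this
  · simp
  · simp

include hL0 hL

theorem l2_f {z : ℂ} {ρ : ℝ} (hρ : 0 < ρ) (hz : ∀ w, ‖w - z‖ ≤ ρ → 9 * δ < ‖w - z'‖) :
    L2ball l a z ρ (8 * 1036800000 * ρ) (fA a L c A) ∧
    L2ball l a z ρ (8 * 1036800000 * ρ) (fB a L c B) ∧
    L2ball l a z ρ (8 * 1036800000 * ρ) (fC a L c C) ∧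
    L2ball l a z ρ (8 * 1036800000 * ρ) (fE a L c E) := by
  refine ⟨?_, ?_, ?_, ?_⟩
  · refine l2_out h hB hL0 hL hρ hz (X := fun k x => eA (c k) (A k) x) fun k x => ?_
    unfold eA; rw [ep_sq2]; nlinarith [sq_nonneg (B k x), sq_nonneg (C k x), sq_nonneg (E k x)]
  · refine l2_out h hB hL0 hL hρ hz (X := fun k x => eB (c k) (B k) x) fun k x => ?_
    unfold eB; rw [ep_sq2]; nlinarith [sq_nonneg (A k x), sq_nonneg (C k x), sq_nonneg (E k x)]
  · refine l2_out h hB hL0 hL hρ hz (X := fun k x => eC (c k) (C k) x) fun k x => ?_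
    unfold eC; rw [ep_sq2]; nlinarith [sq_nonneg (B k x), sq_nonneg (A k x), sq_nonneg (E k x)]
  · refine l2_out h hB hL0 hL hρ hz (X := fun k x => eE (c k) (E k) x) fun k x => ?_
    unfold eE; rw [ep_sq2]; nlinarith [sq_nonneg (B k x), sq_nonneg (C k x), sq_nonneg (A k x)]

end

variable {l : Ultrafilter ι} (h : Pos Ω (l : Filter ι) a N r ζ c z' δ)
  (hB : ∀ᶠ k in (l : Filter ι), BD (N k) (fun p => r p k) (c k) (A k) (B k) (C k) (E k) (Hs k)
    (Hf k))
  (hL0 : ∀ᶠ k in (l : Filter ι), 0 < L k)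
  (hL : ∀ᶠ k in (l : Filter ι), Ann δ (a k) (c k) (Hs k) (Hf k) (L k))

include h hB hL0 hL

/-- The limit outside the ball. -/
theorem out_lim : ∃ q : ℂ → ℂ, DifferentiableOn ℂ q (Ω.D \ Metric.closedBall z' (9 * δ)) ∧
    SLim l a ((Ω.D \ Metric.closedBall z' (9 * δ)) \ Mk ζ w0) r v0 (fA a L c A) (fB a L c B)
      (fC a L c C) (fE a L c E) q := by
  have hW : IsOpen (Ω.D \ Metric.closedBall z' (9 * δ)) :=
    Ω.op.sdiff Metric.isClosed_closedBall
  have hrel := relB_ep h hB fun k => (sc a L k)⁻¹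
  have hrelOn : H170.RelOn l a ((Ω.D \ Metric.closedBall z' (9 * δ)) \ Mk ζ w0) r v0 (fA a L c A)
      (fB a L c B) (fC a L c C) (fE a L c E) := fun z hz =>
    hrel.relOn h.a0 h.hN z ⟨fun hzz => hz.1.2 (by
      rw [hzz]; exact Metric.mem_closedBall_self (by have := h.δ0; positivity)), hz.1.1⟩
  have lsq : ∀ X : ι → Pt → ℝ, (∀ (z : ℂ) (ρ : ℝ), 0 < ρ →
      (∀ w, ‖w - z‖ ≤ ρ → 9 * δ < ‖w - z'‖) → L2ball l a z ρ (8 * 1036800000 * ρ) X) →
      ∀ z ∈ Ω.D \ Metric.closedBall z' (9 * δ), ∀ ρ > 0, ρ ≤ 1 →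
        Metric.closedBall z ρ ⊆ Ω.D \ Metric.closedBall z' (9 * δ) →
        L2ball l a z ρ (8 * 1036800000 * √ρ) X := by
    intro X hX z hz ρ hρ hρ1 hsub
    refine (hX z ρ hρ fun w hw => ?_).mono (mul_le_mul_of_nonneg_left ?_ (by positivity))
    · have := (hsub (by rw [Metric.mem_closedBall, dist_eq_norm]; exact hw)).2
      rw [Metric.mem_closedBall, dist_eq_norm] at this
      exact not_le.1 this
    · exact Real.le_sqrt_of_sq_le (by nlinarith)
  exact slim_ext h.a0 hW h.hr (fun q => q.elim) hrelOn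
    (lsq _ fun z ρ hρ hz => (l2_f h hB hL0 hL hρ hz).2.1)
    (lsq _ fun z ρ hρ hz => (l2_f h hB hL0 hL hρ hz).2.2.1)

omit hL in
theorem sc_pos : ∀ᶠ k in (l : Filter ι), 0 < sc a L k := by
  filter_upwards [h.apos, hL0] with k h1 h2
  unfold sc
  positivity

/-- The limit in the ball. -/
theorem in_lim {u0 : Site} {QA QB QC QE : Pt → ℝ} {κ0 : ℂ} (K : PKr u0 QA QB QC QE κ0)
    (hu : ∀ᶠ k in (l : Filter ι), (c k).1 = (c k).2 + u0) {S : κ → Prop}
    (hS : Metric.closedBall z' (24 * δ) ⊆ VS S F0 ζ w0) {τ : ℝ}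
    (hτ : Tendsto (fun k => a k / sc a L k) l (𝓝 τ)) :
    ∃ y : ℂ → ℂ, DifferentiableOn ℂ y (Metric.ball z' (24 * δ)) ∧
      ∀ z ∈ Metric.ball z' (24 * δ),
        Tendsto (fun kx : ι × Pt => (sc a L kx.1)⁻¹ * (sg0 S (fun p => r p kx.1) (c kx.1) *
          (gr S (fun p => r p kx.1) ((kx.2.1:ℝ) + 1 / 4) * eA (c kx.1) (A kx.1) kx.2) -
          QA (kx.2 - (c kx.1).2))) (nf l a z) (𝓝 (phA (y z))) ∧
        Tendsto (fun kx : ι × Pt => (sc a L kx.1)⁻¹ * (sg0 S (fun p => r p kx.1) (c kx.1) *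
          (gr S (fun p => r p kx.1) ((kx.2.1:ℝ) + 3 / 4) * eB (c kx.1) (B kx.1) kx.2) -
          QB (kx.2 - (c kx.1).2))) (nf l a z) (𝓝 (phB (y z))) ∧
        Tendsto (fun kx : ι × Pt => (sc a L kx.1)⁻¹ * (sg0 S (fun p => r p kx.1) (c kx.1) *
          (gr S (fun p => r p kx.1) ((kx.2.1:ℝ) + 1 / 4) * eC (c kx.1) (C kx.1) kx.2) -
          QC (kx.2 - (c kx.1).2))) (nf l a z) (𝓝 (phC (y z))) ∧
        Tendsto (fun kx : ι × Pt => (sc a L kx.1)⁻¹ * (sg0 S (fun p => r p kx.1) (c kx.1) *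
          (gr S (fun p => r p kx.1) ((kx.2.1:ℝ) + 3 / 4) * eE (c kx.1) (E kx.1) kx.2) -
          QE (kx.2 - (c kx.1).2))) (nf l a z) (𝓝 (phE (y z))) := by
  have hδ := h.δ0
  have aux : ∀ {X : ι → Pt → ℝ} {G : ι → Pt → ℝ}, (∀ k x, G k x ^ 2 = 1) →
      (∀ (z : ℂ) (ρ : ℝ), 0 < ρ → (∀ w, ‖w - z‖ ≤ ρ → 9 * δ < ‖w - z'‖) →
        L2ball l a z ρ (8 * 1036800000 * ρ) (fun k x => (sc a L k)⁻¹ * X k x)) →
      L2on l a {w | 9 * δ < ‖w - z'‖ ∧ ‖w - z'‖ < 24 * δ}
        (fun k x => (sc a L k)⁻¹ * (G k x * X k x)) := by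
    intro X G hG hX z hz
    have hz' : 0 < ‖z - z'‖ - 9 * δ := by linarith [hz.1]
    refine ⟨(‖z - z'‖ - 9 * δ) / 2, by positivity,
      8 * 1036800000 * ((‖z - z'‖ - 9 * δ) / 2), ?_⟩
    filter_upwards [hX z ((‖z - z'‖ - 9 * δ) / 2) (by positivity) (fun w hw => by
      have h1 := norm_sub_le_norm_sub_add_norm_sub z w z'
      rw [norm_sub_rev z w] at h1
      linarith)] with k hk T hT
    refine le_trans (le_of_eq ?_) (hk T hT)
    congr 1
    refine sum_congr rfl fun x _ => ?_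
    rw [mul_pow, mul_pow, hG, one_mul, ← mul_pow]
  have sq1 : ∀ k (t : ℝ), (sg0 S (fun p => r p k) (c k) * gr S (fun p => r p k) t) ^ 2 = 1 := by
    intro k t
    have h1 := sg0_sq S (fun p => r p k) (c k)
    have h2 := gr_sq S (fun p => r p k) t
    rw [mul_pow, pow_two, pow_two, h1, h2, one_mul]
  have e1 : ∀ (g s' x : ℝ), g * s' * x = g * (s' * x) := fun g s' x => mul_assoc _ _ _
  refine ball_lim h.a0 h.hg hδ (sc_pos h hB hL0) hτ K.aB K.aC (Y_clean h hB K hu hS) ?_ ?_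
  · have := aux (X := fun k x => eB (c k) (B k) x) (G := fun k x =>
      sg0 S (fun p => r p k) (c k) * gr S (fun p => r p k) ((x.1:ℝ) + 3 / 4))
      (fun k x => sq1 k _) fun z ρ hρ hz => (l2_f h hB hL0 hL hρ hz).2.1
    simpa only [e1] using this
  · have := aux (X := fun k x => eC (c k) (C k) x) (G := fun k x =>
      sg0 S (fun p => r p k) (c k) * gr S (fun p => r p k) ((x.1:ℝ) + 1 / 4))
      (fun k x => sq1 k _) fun z ρ hρ hz => (l2_f h hB hL0 hL hρ hz).2.2.1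
    simpa only [e1] using this

theorem flim {u0 : Site} {QA QB QC QE : Pt → ℝ} {κ0 : ℂ} (K : PKr u0 QA QB QC QE κ0)
    (hu : ∀ᶠ k in (l : Filter ι), (c k).1 = (c k).2 + u0) {S : κ → Prop}
    (hS : Metric.closedBall z' (24 * δ) ⊆ VS S F0 ζ w0) {τ : ℝ}
    (hτ : Tendsto (fun k => a k / sc a L k) l (𝓝 τ)) :
    ∃ (σ : ℝ) (q y : ℂ → ℂ), FLim Ω.D (l : Filter ι) a L r ζ c z' δ A B C E S QA QB QC QE κ0 τ σ q y := by
  classical
  have hδ := h.δ0
  obtain ⟨q0, hq0, hs0⟩ := out_lim h hB hL0 hL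
  obtain ⟨y, hy, hylim⟩ := in_lim h hB hL0 hL K hu hS hτ
  obtain ⟨σ, hσ2, hσ⟩ : ∃ σ : ℝ, σ * σ = 1 ∧
      ∀ᶠ k in (l : Filter ι), sg0 S (fun p => r p k) (c k) = σ := by
    have h1 : ∀ᶠ k in (l : Filter ι), sg0 S (fun p => r p k) (c k) = 1 ∨
        sg0 S (fun p => r p k) (c k) = -1 :=
      Eventually.of_forall fun k => mul_self_eq_one_iff.1 (sg0_sq S (fun p => r p k) (c k))
    rcases Ultrafilter.eventually_or.1 h1 with h2 | h2
    · exact ⟨1, by norm_num, h2⟩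
    · exact ⟨-1, by norm_num, h2⟩
  have hs1 := sc_pos (l := l) h hB hL0
  have hvlim : ∀ q : Empty, Tendsto (fun k => pt (a k) (v0 q k)) (l : Filter ι) (𝓝 (w0 q)) :=
    fun q => q.elim
  -- the limits of the gauged fields
  have key : ∀ (X : ι → Pt → ℝ) (Q : Pt → ℝ) (φ : ℂ →L[ℝ] ℝ) (t : ℝ) (e : ι → Pt → ℝ),
      Asy Q φ κ0 → (∀ k x, X k x = (sc a L k)⁻¹ * e k x) →
      (∀ z ∈ Metric.ball z' (24 * δ), Tendsto (fun kx : ι × Pt => (sc a L kx.1)⁻¹ *
        (sg0 S (fun p => r p kx.1) (c kx.1) * (gr S (fun p => r p kx.1) ((kx.2.1:ℝ) + t) *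
        e kx.1 kx.2) - Q (kx.2 - (c kx.1).2))) (nf l a z) (𝓝 (φ (y z)))) →
      ∀ z ∈ Metric.ball z' (24 * δ), z ≠ z' → Tendsto (fun kx : ι × Pt =>
        gs S F0 (fun p => r p kx.1) (fun q => v0 q kx.1) ((kx.2.1:ℝ) + t) * X kx.1 kx.2)
        (nf l a z) (𝓝 (φ (σ * (τ * κ0 / (z - z') + y z)))) := by
    intro X Q φ t e hQ hX hYl z hz hzz
    have h1 := (hτ.comp (tendsto_fst_nf z)).mul (hQ.lim h.a0 h.hg hzz)
    have h2 := ((hYl z hz).add h1).const_mul σ
    have e1 : σ * (φ (y z) + τ * φ (κ0 / (z - z'))) = φ (σ * (τ * κ0 / (z - z') + y z)) := by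
      have g1 : (σ : ℂ) * (τ * κ0 / (z - z') + y z) = σ • (τ • (κ0 / (z - z')) + y z) := by
        rw [Complex.real_smul, Complex.real_smul]; ring
      rw [g1, map_smul, map_add, map_smul, smul_eq_mul, smul_eq_mul]; ring
    rw [e1] at h2
    refine h2.congr' ?_
    filter_upwards [apos_nf h.a0 z, ev_nf_of (l := (l : Filter ι)) (a := a) (z := z) hs1,
      ev_nf_of (l := (l : Filter ι)) (a := a) (z := z) hσ] with kx k1 k2 k3
    rw [gr_eq, hX]
    simp only [Function.comp_apply]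
    rw [k3]
    have k4 : a kx.1 / sc a L kx.1 * ((a kx.1)⁻¹ * Q (kx.2 - (c kx.1).2)) =
        (sc a L kx.1)⁻¹ * Q (kx.2 - (c kx.1).2) := by field_simp
    rw [k4]
    linear_combination (gr S (fun p => r p kx.1) ((kx.2.1:ℝ) + t) *
      ((sc a L kx.1)⁻¹ * e kx.1 kx.2)) * hσ2
  have limA := key (fA a L c A) QA phA (1 / 4) (fun k x => eA (c k) (A k) x) K.aA
    (fun k x => rfl) fun z hz => (hylim z hz).1
  have limB := key (fB a L c B) QB phB (3 / 4) (fun k x => eB (c k) (B k) x) K.aB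
    (fun k x => rfl) fun z hz => (hylim z hz).2.1
  have limC := key (fC a L c C) QC phC (1 / 4) (fun k x => eC (c k) (C k) x) K.aC
    (fun k x => rfl) fun z hz => (hylim z hz).2.2.1
  have limE := key (fE a L c E) QE phE (3 / 4) (fun k x => eE (c k) (E k) x) K.aE
    (fun k x => rfl) fun z hz => (hylim z hz).2.2.2
  -- the overlap
  have hVS : ∀ z ∈ Metric.ball z' (24 * δ), z ∈ VS S F0 ζ w0 := fun z hz =>
    hS (Metric.ball_subset_closedBall hz)
  have hMk : ∀ z ∈ Metric.ball z' (24 * δ), z ∉ Mk ζ w0 := fun z hz =>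
    notMem_Mk.2 ⟨(VS_ne (hVS z hz)).1, fun q => q.elim⟩
  have hDD : ∀ z ∈ Metric.ball z' (24 * δ), z ∈ Ω.D := fun z hz => h.ball z (by
    rw [Metric.mem_ball, dist_eq_norm] at hz; exact hz.le)
  have overlap : ∀ z ∈ Metric.ball z' (24 * δ), z ∉ Metric.closedBall z' (9 * δ) →
      q0 z = RS S F0 ζ w0 z * (σ * (τ * κ0 / (z - z') + y z)) := by
    intro z hz hz9
    have hzz : z ≠ z' := by
      rintro rfl
      exact hz9 (Metric.mem_closedBall_self (by positivity))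
    have hzW : z ∈ (Ω.D \ Metric.closedBall z' (9 * δ)) \ Mk ζ w0 := ⟨⟨hDD z hz, hz9⟩, hMk z hz⟩
    have := nf_neBot (l := (l : Filter ι)) h.a0 z
    have g1 := of_xlim h.a0 h.hr hvlim (hVS z hz) (Or.inl rfl) _ _ (hs0.A z hzW)
    have g2 := of_xlim h.a0 h.hr hvlim (hVS z hz) (Or.inr rfl) _ _ (hs0.E z hzW)
    have e1 := tendsto_nhds_unique g1 (limA z hz hzz)
    have e2 := tendsto_nhds_unique g2 (limE z hz hzz)
    rw [phA_apply, phA_apply] at e1
    rw [phE_apply, phE_apply, neg_inj] at e2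
    have e3 := Complex.ext e1 e2
    rw [← e3]
    have := RS_ne (hVS z hz)
    field_simp
  set q : ℂ → ℂ := fun z => if z ∈ Metric.ball z' (24 * δ) then
    RS S F0 ζ w0 z * (σ * (τ * κ0 / (z - z') + y z)) else q0 z with hq
  have hqW : ∀ z ∈ Ω.D \ Metric.closedBall z' (9 * δ), q z = q0 z := by
    intro z hz
    by_cases hzb : z ∈ Metric.ball z' (24 * δ)
    · rw [hq]; simp only [if_pos hzb]; exact (overlap z hzb hz.2).symm
    · rw [hq]; simp only [if_neg hzb]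
  have hqb : ∀ z ∈ Metric.ball z' (24 * δ), q z = RS S F0 ζ w0 z *
      (σ * (τ * κ0 / (z - z') + y z)) := fun z hz => by rw [hq]; simp only [if_pos hz]
  refine ⟨σ, q, y, hσ2, hσ, ?_, hy, fun z hz _ => hqb z hz, ?_, fun z hz => (hylim z hz).1,
    fun z hz => (hylim z hz).2.1, fun z hz => (hylim z hz).2.2.1, fun z hz => (hylim z hz).2.2.2⟩
  · intro z hz
    by_cases hzb : z ∈ Metric.ball z' (24 * δ)
    · have hn : z - z' ≠ 0 := sub_ne_zero.2 hz.2
      have h1 : DifferentiableAt ℂ (fun w => RS S F0 ζ w0 w * (σ * (τ * κ0 / (w - z') + y w))) z := by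
        refine (RS_diff (hVS z hzb)).mul (DifferentiableAt.const_mul ?_ _)
        have d1 : DifferentiableAt ℂ (fun w : ℂ => (τ : ℂ) * κ0 / (w - z')) z :=
          DifferentiableAt.div (by fun_prop) (by fun_prop) hn
        exact d1.add (hy.differentiableAt (Metric.isOpen_ball.mem_nhds hzb))
      refine (h1.congr_of_eventuallyEq ?_).differentiableWithinAt
      filter_upwards [Metric.isOpen_ball.mem_nhds hzb] with w hw
      exact hqb w hw
    · have hzW : z ∈ Ω.D \ Metric.closedBall z' (9 * δ) := ⟨hz.1, fun h' => hzb (by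
        rw [Metric.mem_closedBall] at h'
        rw [Metric.mem_ball]; linarith)⟩
      have hWo : IsOpen (Ω.D \ Metric.closedBall z' (9 * δ)) :=
        Ω.op.sdiff Metric.isClosed_closedBall
      have h1 := hq0.differentiableAt (hWo.mem_nhds hzW)
      refine (h1.congr_of_eventuallyEq ?_).differentiableWithinAt
      filter_upwards [hWo.mem_nhds hzW] with w hw
      exact hqW w hw
  · have hW : ∀ z ∈ (Ω.D \ {z'}) \ Mk ζ w0, z ∉ Metric.ball z' (24 * δ) →
        z ∈ (Ω.D \ Metric.closedBall z' (9 * δ)) \ Mk ζ w0 := fun z hz hzb =>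
      ⟨⟨hz.1.1, fun h' => hzb (by
        rw [Metric.mem_closedBall] at h'
        rw [Metric.mem_ball]; linarith)⟩, hz.2⟩
    have hdiv : ∀ z ∈ Metric.ball z' (24 * δ), q z / RS S F0 ζ w0 z =
        σ * (τ * κ0 / (z - z') + y z) := by
      intro z hz
      rw [hqb z hz]
      have := RS_ne (hVS z hz)
      field_simp
    refine ⟨fun z hz => ?_, fun z hz => ?_, fun z hz => ?_, fun z hz => ?_⟩
    · by_cases hzb : z ∈ Metric.ball z' (24 * δ)
      · refine xlim_of h.a0 h.hr hvlim (hVS z hzb) (Or.inl rfl) _ _ ?_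
        rw [hdiv z hzb]
        exact limA z hzb hz.1.2
      · rw [hqW z (hW z hz hzb).1]
        exact hs0.A z (hW z hz hzb)
    · by_cases hzb : z ∈ Metric.ball z' (24 * δ)
      · refine xlim_of h.a0 h.hr hvlim (hVS z hzb) (Or.inr rfl) _ _ ?_
        rw [hdiv z hzb]
        exact limB z hzb hz.1.2
      · rw [hqW z (hW z hz hzb).1]
        exact hs0.B z (hW z hz hzb)
    · by_cases hzb : z ∈ Metric.ball z' (24 * δ)
      · refine xlim_of h.a0 h.hr hvlim (hVS z hzb) (Or.inl rfl) _ _ ?_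
        rw [hdiv z hzb]
        exact limC z hzb hz.1.2
      · rw [hqW z (hW z hz hzb).1]
        exact hs0.C z (hW z hz hzb)
    · by_cases hzb : z ∈ Metric.ball z' (24 * δ)
      · refine xlim_of h.a0 h.hr hvlim (hVS z hzb) (Or.inr rfl) _ _ ?_
        rw [hdiv z hzb]
        exact limE z hzb hz.1.2
      · rw [hqW z (hW z hz hzb).1]
        exact hs0.E z (hW z hz hzb)

end Vale.Agent.P144T.C
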