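import Vale.Agent.P144T.C.Z1
import Vale.Agent.P144T.A.Main

/-!
Spinors with a source in the bulk of a general domain: the limit of the `H`-function.
-/

set_option linter.all false

namespace Vale.Agent.P144T.C

open Finset Vale.Agent.P144 Filter Topology
open Vale.Agent.P144.H170 (Pt pt bx mem_bx bx_mono tauF lap lap_AL436 nf ev_nf apos_nf ev_nf_of Mk
  Mk_finite SLim gb green_near mem_dia_ev notMem_Mk nf_neBot)
open Vale.Agent.P144.H135
open Vale.Agent.P144.H436 (nn green)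

section

variable {Λ : Finset Site} {Hs Hf : Site → ℝ} {g : Site} {n m : ℕ} {L : ℝ}

theorem exists_adj {S : Finset Site} {y : Site}
    (h : y + (1, 0) ∈ S ∨ y + (-1, 0) ∈ S ∨ y + (0, 1) ∈ S ∨ y + (0, -1) ∈ S) :
    ∃ z, z ∈ S ∧ (z = y + (1, 0) ∨ z = y + (-1, 0) ∨ z = y + (0, 1) ∨ z = y + (0, -1)) := by
  rcases h with h1 | h1 | h1 | h1
  · exact ⟨_, h1, Or.inl rfl⟩
  · exact ⟨_, h1, Or.inr (Or.inl rfl)⟩
  · exact ⟨_, h1, Or.inr (Or.inr (Or.inl rfl))⟩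
  · exact ⟨_, h1, Or.inr (Or.inr (Or.inr rfl))⟩

/-- Upper bound of `Hs` outside the box. -/
theorem Hs_out (hb : HB Λ Hs Hf) (hΛ : ∀ x ∈ Λ, |x.1| + |x.2| + 1 ≤ (m : ℤ)) (hn : 0 < n)
    (hL0 : 0 ≤ L) (hin : ∀ x ∈ bx g n, x ∈ Λ)
    (hsub : ∀ x, x ∉ bx g n → 0 ≤ AL.lap (hat Λ Hs) x)
    (hLs : ∀ x ∈ bx g n, x ∉ bx g (n - 1) → |Hs x| ≤ L) {x : Site} (hxg : x ∉ bx g n) :
    Hs x ≤ L := by
  refine (hb.le_hat x).trans ?_
  by_cases hx : x ∈ dia m
  swap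
  · rw [A.hat_far hb hΛ hx]; exact hL0
  have key := H436.max_principle' (Λ := (dia m).filter fun y => y ∉ bx g n)
    (u := fun y => hat Λ Hs y - L) (x := x) (fun y hy => ?_) (fun y hy hn' => ?_)
    (mem_filter.2 ⟨hx, hxg⟩)
  · linarith
  · have e : H436.lap (fun y => hat Λ Hs y - L) y = H436.lap (hat Λ Hs) y := by
      unfold H436.lap; ring
    rw [e, ← lap_AL436]
    exact hsub y (mem_filter.1 hy).2
  · obtain ⟨z, hz, hyz⟩ := exists_adj hn'
    by_cases hyb : y ∈ bx g n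
    · rw [hat_in (hin y hyb)]
      linarith [(abs_le.1 (hLs y hyb (adj_box hn (mem_filter.1 hz).2 hyz))).2]
    · rw [A.hat_far hb hΛ fun h => hy (mem_filter.2 ⟨h, hyb⟩)]
      linarith

/-- Lower bound of `Hf` outside the box. -/
theorem Hf_out {κ : Type} [Fintype κ] {r : κ → Site} (hb : HB Λ Hs Hf) (hΛ : ∀ x ∈ Λ, x ∈ dia m)
    (hn : 0 < n) (h0 : ∀ x ∉ Λ, -Hs x ≤ L) {M : ℝ} (hM : 0 ≤ M)
    (hsup : ∀ x, (∀ u ∈ AL.cnr x, u ∈ Λ) → x ∉ bx g n → (∀ p, x ≠ r p) → AL.lap Hf x ≤ 0)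
    (hup : ∀ p, AL.lap Hf (r p) ≤ M) (hLf : ∀ x ∈ bx g n, x ∉ bx g (n - 1) → |Hf x| ≤ L)
    {x : Site} (hxg : x ∉ bx g n) : -Hf x ≤ L + M * ∑ p, green (dia m) (r p) x := by
  classical
  have hG0 : ∀ y, 0 ≤ ∑ p, M * green (dia m) (r p) y := fun y =>
    sum_nonneg fun p _ => mul_nonneg hM (H436.green_nonneg _ _ _)
  set S : Finset Site := Λ.filter fun f => f ∉ bx g n ∧ ∀ u ∈ AL.cnr f, u ∈ Λ with hS
  have hout : ∀ y, y ∉ S → y ∉ bx g n → -Hf y ≤ L := fun y hy hyg => by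
    by_contra hc
    have hin : ∀ u ∈ AL.cnr y, u ∈ Λ := fun u hu => by
      by_contra hu'
      exact hc (by rw [hb.zero y u hu hu']; exact h0 u hu')
    exact hy (mem_filter.2 ⟨hin y (by obtain ⟨i, j⟩ := y; simp [AL.mem_cnr]), hyg, hin⟩)
  rw [mul_sum]
  by_cases hx : x ∈ S
  swap
  · linarith [hG0 x, hout x hx hxg]
  have key := H436.max_principle' (Λ := S)
    (u := fun y => -Hf y - L - ∑ p, M * green (dia m) (r p) y) (x := x) (fun y hy => ?_)
    (fun y hy hn' => ?_) hx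
  · linarith
  · obtain ⟨hy0, hyg, hy1⟩ := mem_filter.1 hy
    have e1 : H436.lap (fun y => -Hf y - L - ∑ p, M * green (dia m) (r p) y) y =
        -H436.lap Hf y - H436.lap (fun y => ∑ p, M * green (dia m) (r p) y) y := by
      unfold H436.lap; ring
    have e2 : H436.lap (fun y => ∑ p, M * green (dia m) (r p) y) y =
        -∑ p, M * (if y = r p then (1:ℝ) else 0) := by
      rw [H436.lap_sum, ← sum_neg_distrib]
      refine sum_congr rfl fun p _ => ?_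
      rw [H436.lap_mul, H436.lap_green (hΛ y hy0)]; ring
    rw [e1, e2, sub_neg_eq_add, ← lap_AL436]
    by_cases hp : ∀ p, y ≠ r p
    · have e3 : 0 ≤ ∑ k, M * (if y = r k then (1:ℝ) else 0) :=
        sum_nonneg fun k _ => by split_ifs <;> simp [hM]
      linarith [hsup y hy1 hyg hp]
    · push Not at hp
      obtain ⟨q, hq⟩ := hp
      have h1 := single_le_sum (f := fun k => M * (if y = r k then (1:ℝ) else 0))
        (fun k _ => by split_ifs <;> simp [hM]) (mem_univ q)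
      simp only [if_pos hq, mul_one] at h1
      have h2 := hup q
      rw [← hq] at h2
      linarith
  · obtain ⟨z, hz, hyz⟩ := exists_adj hn'
    by_cases hyb : y ∈ bx g n
    · linarith [(abs_le.1 (hLf y hyb (adj_box hn (mem_filter.1 hz).2.1 hyz))).1, hG0 y]
    · linarith [hG0 y, hout y hy hyb]

end

variable {Ω : Dom} {ι κ : Type} [Fintype κ] {a : ι → ℝ} {N : ι → Finset Site} {r : κ → ι → Site}
  {ζ : κ → ℂ} {c : ι → AL.Cn} {z' : ℂ} {δ : ℝ} {A B C E Hs Hf : ι → Pt → ℝ} {L : ι → ℝ}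

section

variable {l : Filter ι} (h : Pos Ω l a N r ζ c z' δ)
  (hB : ∀ᶠ k in l, BD (N k) (fun p => r p k) (c k) (A k) (B k) (C k) (E k) (Hs k) (Hf k))
  (hL0 : ∀ᶠ k in l, 0 < L k) (hL : ∀ᶠ k in l, Ann δ (a k) (c k) (Hs k) (Hf k) (L k))

include h hB

/-- The spinor is regular outside the box, away from the disorders. -/
theorem reg_ev : ∀ᶠ k in l, ∀ x, x ∉ bx (c k).2 (nb δ (a k)) →
    0 ≤ AL.lap (hat (N k) (Hs k)) x ∧
      ((∀ p, x ≠ r p k) → Reg (N k) (Hs k) (Hf k) x) := by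
  classical
  filter_upwards [h.exc (hB.mono fun k hk => hk.cnr), hB, h.apos, h.asmall h.δ0]
    with k k1 k2 k5 k6 x hx
  have n0 : 0 < nb δ (a k) := nb_pos k5 k6
  have hP : x ∉ ({(c k).1} : Finset Site) := fun hv => hx (by
    rw [mem_singleton] at hv
    rw [hv, mem_bx]
    rcases AL.mem_cnr.1 k2.cnr with h6 | h6 | h6 | h6 <;> rw [h6] <;> simp <;> lia)
  refine ⟨(sub_nonneg.2 ((HB.of_spr k2.spr k2.isH).le_hat x)).trans
      (lap_hat k2.spr k2.isH (k1.θc x.1 x.2 hP)),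
    fun h1 => Reg.of_spr k2.spr k2.isH (k1.θc x.1 x.2 hP) (k1.τc x.1 x.2 fun hy => ?_)⟩
  rw [mem_insert, mem_image] at hy
  rcases hy with e | ⟨p, -, e⟩
  · exact hx (by rw [← e]; exact H170.self_mem_bx _ _)
  · exact h1 p e.symm

include hL0 hL

/-- Bounds of the `H`-function outside the box. -/
theorem H_ev : ∃ g : ℝ, ∀ᶠ k in l, ∀ x, x ∉ bx (c k).2 (nb δ (a k)) → Hs k x / L k ≤ 1 ∧
    -(Hf k x / L k) ≤ g + 900000 * ∑ p, green (dia (nn (a k))) (r p k) x ∧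
      Hf k x / L k ≤ Hs k x / L k := by
  have hδ := h.δ0
  obtain ⟨g, g0, hg⟩ := h.hN.holes h.a0 Ω.op Ω.small Ω.fat
  refine ⟨1 + g * 900000, ?_⟩
  filter_upwards [hg, reg_ev h hB, hB, hL0, hL, h.apos,
    h.asmall (show 0 < δ / 100 from by positivity), h.rfar, h.gclose hδ, h.inDia,
    h.hN.big h.a0 Ω.small 1, masses h hB hL0 hL] with k k0 k1 k2 k3 k4 k5 k6 k8 k9 k7 k10 k11 x hxg
  have n0 : 0 < nb δ (a k) := nb_pos k5 (by linarith)
  have n1' := nb_le hδ k5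
  have hsub : nb δ (a k) ≤ 8 * nb δ (a k) := by lia
  have hb := HB.of_spr k2.spr k2.isH
  refine ⟨?_, ?_, div_le_div_of_nonneg_right (hb.le x x (by simp [AL.mem_cnr])) k3.le⟩
  · rw [div_le_one k3]
    refine Hs_out hb k10 n0 k3.le (fun y hy => k7 y ?_) (fun y hyg => (k1 y hyg).1)
      (fun y hy hy' => (k4 y (bx_mono hsub hy) hy').1) hxg
    have h1 := norm_of_bx k5 hy
    have h2 := norm_sub_le_norm_sub_add_norm_sub (pt (a k) y) (pt (a k) (c k).2) z'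
    linarith
  · have key := Hf_out (m := nn (a k)) (r := fun p => r p k) (M := 900000 * L k)
      (L := (1 + g * 900000) * L k) hb (fun y hy => ?_) n0 (fun y hy => ?_) (by positivity) (fun y hy hyg hp => ((k1 y hyg).2 hp).2 hy) (fun p => ?_)
      (fun y hy hy' => (k4 y (bx_mono hsub hy) hy').2.trans
        (le_mul_of_one_le_left k3.le (by linarith))) hxg
    · rw [← neg_div, div_le_iff₀ k3]
      linarith
    · have := k10 y hy
      obtain ⟨i, j⟩ := y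
      rw [AL.mem_dia]
      simp only at this
      lia
    · have := k0 _ _ (fun x => (1 - CT (c k).2 (2 * nb δ (a k)) x) * Hs k x) (900000 * L k) hb
        (fun w hw => ?_) (fun T => by simp only [H170.lap_AL]; exact (k11 T).1) y hy
      · linarith [neg_le_abs (Hs k y)]
      · rw [CT_zero (by lia) fun b => hw (k7 w ?_), sub_zero, one_mul]
        have h1 := norm_of_bx k5 (bx_mono (show 2 * (2 * nb δ (a k)) - 1 ≤ 4 * nb δ (a k) by lia) b)
        have h2 := norm_sub_le_norm_sub_add_norm_sub (pt (a k) w) (pt (a k) (c k).2) z'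
        push_cast at h1
        linarith
    · have g2 := (k11 {r p k}).2
      rw [sum_singleton, lap_cut_eq n0 fun hvb => ?_] at g2
      · rw [H170.lap_AL]
        exact (abs_le.1 g2).2
      · have g5 := norm_of_bx k5 hvb
        have g6 := k8 p
        push_cast at g5
        linarith

end

theorem out_bx {l : Filter ι} (h : Pos Ω l a N r ζ c z' δ) {z : ℂ}
    (hz : δ < |(z - z').re| ∨ δ < |(z - z').im|) :
    ∀ᶠ kx in nf l a z, kx.2 ∉ bx (c kx.1).2 (nb δ (a kx.1)) := by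
  have hδ := h.δ0
  rcases hz with h1 | h1
  · have t1 := (H170.re_nf h.a0 h.hg 0 (z := z)).abs
    filter_upwards [t1.eventually (lt_mem_nhds h1), apos_nf h.a0 z] with kx k1 k2 hb
    rw [mem_bx] at hb
    have k3 := nb_le hδ k2
    rw [add_zero, abs_mul, abs_of_pos k2] at k1
    have k4 : |(kx.2.1:ℝ) - ((c kx.1).2.1:ℝ)| ≤ nb δ (a kx.1) := by
      have k5 : |kx.2.1 - (c kx.1).2.1| ≤ (nb δ (a kx.1) : ℤ) := by rw [abs_le]; lia
      have : ((|kx.2.1 - (c kx.1).2.1| : ℤ) : ℝ) ≤ ((nb δ (a kx.1) : ℤ) : ℝ) := by exact_mod_cast k5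
      push_cast at this
      exact this
    have k6 := mul_le_mul_of_nonneg_left k4 k2.le
    linarith
  · have t1 := (H170.im_nf h.a0 h.hg 0 (z := z)).abs
    filter_upwards [t1.eventually (lt_mem_nhds h1), apos_nf h.a0 z] with kx k1 k2 hb
    rw [mem_bx] at hb
    have k3 := nb_le hδ k2
    rw [add_zero, abs_mul, abs_of_pos k2] at k1
    have k4 : |(kx.2.2:ℝ) - ((c kx.1).2.2:ℝ)| ≤ nb δ (a kx.1) := by
      have k5 : |kx.2.2 - (c kx.1).2.2| ≤ (nb δ (a kx.1) : ℤ) := by rw [abs_le]; lia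
      have : ((|kx.2.2 - (c kx.1).2.2| : ℤ) : ℝ) ≤ ((nb δ (a kx.1) : ℤ) : ℝ) := by exact_mod_cast k5
      push_cast at this
      exact this
    have k6 := mul_le_mul_of_nonneg_left k4 k2.le
    linarith

variable {l : Ultrafilter ι} (h : Pos Ω (l : Filter ι) a N r ζ c z' δ)
  (hB : ∀ᶠ k in (l : Filter ι), BD (N k) (fun p => r p k) (c k) (A k) (B k) (C k) (E k) (Hs k)
    (Hf k))
  (hL0 : ∀ᶠ k in (l : Filter ι), 0 < L k)
  (hL : ∀ᶠ k in (l : Filter ι), Ann δ (a k) (c k) (Hs k) (Hf k) (L k))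

include h hB hL0 hL

theorem hl_exists {q : ℂ → ℂ} (hs : SLim l a ((Ω.D \ {z'}) \ Mk ζ w0) r v0 (fA a L c A)
    (fB a L c B) (fC a L c C) (fE a L c E) q) :
    ∃ H, HL Ω (l : Filter ι) a L ζ z' δ Hs Hf q H := by
  have hδ := h.δ0
  have hn := H436.nn_lim h.a0
  set K : Set ℂ := Mk ζ w0 ∪ {z | |(z - z').re| ≤ δ ∧ |(z - z').im| ≤ δ} with hK
  have hKU : ∀ D : Set ℂ, D \ K = Uh D ζ z' δ := fun D => by
    ext z
    simp only [hK, Uh, Set.mem_sdiff, Set.mem_union, Set.mem_setOf_eq, Set.mem_inter_iff, not_or,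
      not_and_or, not_le, and_assoc]
  have hsq : ∀ z : ℂ, |(z - z').re| ≤ δ ∧ |(z - z').im| ≤ δ → ‖z - z'‖ ≤ 2 * δ := fun z hz => by
    linarith [Complex.norm_le_abs_re_add_abs_im (z - z'), hz.1, hz.2]
  obtain ⟨g, hg⟩ := H_ev h hB hL0 hL
  have hb1 : ∀ z ∈ Uh Dia ζ z' δ, ∀ᶠ kx in nf (l : Filter ι) a z, Hs kx.1 kx.2 / L kx.1 ≤ 1 ∧
      -(Hf kx.1 kx.2 / L kx.1) ≤ g + 900000 * ∑ p, gb z (ζ p) ∧
      Hf kx.1 kx.2 / L kx.1 ≤ Hs kx.1 kx.2 / L kx.1 := by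
    intro z hz
    have h1 : ∀ᶠ kx in nf (l : Filter ι) a z, ∀ q,
        green (dia (nn (a kx.1))) (r q kx.1) kx.2 ≤ gb z (ζ q) := eventually_all.2 fun q =>
      green_near h.a0 hn (h.hr q) (mem_dia_ev h.a0 hn (Ω.dia (h.dia q)) (h.hr q)) hz.1.1
        ((notMem_Mk.1 hz.1.2).1 q)
    filter_upwards [out_bx h hz.2, h1,
      ev_nf_of (l := (l : Filter ι)) (a := a) (z := z) hg] with kx k1 k2 k3
    obtain ⟨g1, g2, g3⟩ := k3 kx.2 k1
    have := sum_le_sum fun q (_ : q ∈ univ) => k2 q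
    exact ⟨g1, by linarith, g3⟩
  have dd : ∀ z ∈ Uh Ω.D ζ z' δ, z ∈ Uh Dia ζ z' δ := fun z hz => ⟨⟨Ω.dia hz.1.1, hz.1.2⟩, hz.2⟩
  have hbb : ∀ z ∈ Uh Ω.D ζ z' δ, ∃ M, ∀ᶠ k in (l : Filter ι),
      |Hs k (fl (a k) z) / L k| ≤ M := by
    intro z hz
    obtain ⟨ρ, hρ, h2⟩ := (ev_nf (P := fun k x => Hs k x / L k ≤ 1 ∧
      -(Hf k x / L k) ≤ g + 900000 * ∑ p, gb z (ζ p) ∧ Hf k x / L k ≤ Hs k x / L k)).1
      (hb1 z (dd z hz))
    refine ⟨1 + |g + 900000 * ∑ p, gb z (ζ p)|, ?_⟩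
    filter_upwards [h2, h.apos, h.asmall (show 0 < ρ / 2 by positivity)] with k k1 k2 k3
    obtain ⟨k4, k5, k6⟩ := k1 (fl (a k) z) ((H170.pt_fl_norm k2 z).trans (by linarith))
    rw [abs_le]
    constructor
    · linarith [le_abs_self (g + 900000 * ∑ p, gb z (ζ p))]
    · linarith [abs_nonneg (g + 900000 * ∑ p, gb z (ζ p))]
  have hU1 : Uh Ω.D ζ z' δ ⊆ (Ω.D \ {z'}) \ Mk ζ w0 := Uh_sub hδ
  obtain ⟨H, chs, chf, hder⟩ := H170.hlim_exists h.a0 (Uh_open Ω.op ζ z' δ) h.hr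
    (v := v0) (ω := w0) (fun q => q.elim) (fun z hz => hz.1.2)
    (A := fA a L c A) (B := fB a L c B) (C := fC a L c C) (E := fE a L c E) (q := q)
    ⟨fun z hz => hs.A z (hU1 hz), fun z hz => hs.B z (hU1 hz), fun z hz => hs.C z (hU1 hz),
      fun z hz => hs.E z (hU1 hz)⟩ (hon_all h hB hL0 _) hbb
  have hD : HData Ω.D (l : Filter ι) a N (fun k x => Hs k x / L k) (fun k x => Hf k x / L k) K
      H := by
    refine ⟨inferInstance, h.a0, h.hN, (Mk_finite ζ w0).isCompact.union ?_, ?_, ?_,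
      fun z hz => ?_, fun z hz => ?_, (hKU _).symm ▸ chs, (hKU _).symm ▸ chf⟩
    · refine (isCompact_closedBall z' (2 * δ)).of_isClosed_subset
        ((isClosed_le (f := fun z : ℂ => |(z - z').re|) (by fun_prop) continuous_const).inter
          (isClosed_le (f := fun z : ℂ => |(z - z').im|) (by fun_prop) continuous_const))
        fun z hz => ?_
      rw [Metric.mem_closedBall, dist_eq_norm]
      exact hsq z hz
    · rintro z ((⟨p, rfl⟩ | ⟨p, -⟩) | hz)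
      · exact h.dia p
      · exact p.elim
      · exact h.ball z (by linarith [hsq z hz])
    · filter_upwards [hB, hL0] with k k1 k2
      exact (HB.of_spr k1.spr k1.isH).div k2
    · rw [hKU] at hz
      filter_upwards [out_bx h hz.2, eventually_all.2 fun p => P144T.A.ne_nf (h.hr p)
        ((notMem_Mk.1 hz.1.2).1 p), ev_nf_of (l := (l : Filter ι)) (a := a) (z := z) (reg_ev h hB),
        ev_nf_of (l := (l : Filter ι)) (a := a) (z := z) hL0] with kx k1 k2 k3 k4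
      exact ((k3 kx.2 k1).2 k2).div k4
    · rw [hKU] at hz
      refine ⟨max 1 (g + 900000 * ∑ p, gb z (ζ p)), (hb1 z hz).mono fun kx k1 => ?_⟩
      exact ⟨k1.1.trans (le_max_left _ _), k1.2.1.trans (le_max_right _ _)⟩
  refine ⟨H, chs, chf, fun z hz => (hder z hz).hasFDerivAt, ⟨1, fun z hz => ?_⟩, Ω.van hD,
    fun F h1 h2 => Ω.bd hD F ((hKU _).symm ▸ h1) ((hKU _).symm ▸ h2)⟩
  have := nf_neBot (l := (l : Filter ι)) h.a0 z
  exact le_of_tendsto (H170.cconv_iff.1 chs z hz) ((hb1 z (dd z hz)).mono fun kx k1 => k1.1)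

end Vale.Agent.P144T.C
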